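import Crest.Agent.ZD.Defs
/-! Designs for the random model: lines of a projective plane and small blocks. -/
set_option autoImplicit false
namespace Crest.Agent.DF
open Finset Crest.Agent.ZD

/-- a finite projective plane of order `q` on the point set `Pt` -/
structure Plane (Pt : Type) [DecidableEq Pt] (q : ℕ) where
  L : Type
  fin : Fintype L
  dec : DecidableEq L
  l₀ : L
  ln : L → Finset Pt
  card_ln : ∀ l, (ln l).card = q + 1
  deg : ∀ p, (univ.filter fun l => p ∈ ln l).card = q + 1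
  pair : ∀ p p', p ≠ p' → (univ.filter fun l => p ∈ ln l ∧ p' ∈ ln l).card ≤ 1
  inter : ∀ l l', l ≠ l' → (ln l ∩ ln l').card = 1

open Configuration LinearAlgebra.Projectivization in
theorem exists_plane (F : Type) [Field F] [Fintype F] (Pt : Type) [Fintype Pt] [DecidableEq Pt]
    (h : Fintype.card Pt = Fintype.card F ^ 2 + Fintype.card F + 1) :
    Nonempty (Plane Pt (Fintype.card F)) := by
  classical
  let P := ℙ F (Fin 3 → F)
  have : Fintype P := Fintype.ofFinite P
  have hc : Fintype.card P = Fintype.card F ^ 2 + Fintype.card F + 1 := by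
    rw [← Nat.card_eq_fintype_card, Projectivization.card_of_finrank F (Fin 3 → F) (n := 3)
      (by simp), Nat.card_eq_fintype_card]
    simp [Finset.sum_range_succ]; ring
  have ho : ProjectivePlane.order P P = Fintype.card F := by
    have := ProjectivePlane.card_points P P
    rw [hc] at this
    rcases lt_trichotomy (ProjectivePlane.order P P) (Fintype.card F) with h1 | h1 | h1
    · nlinarith
    · exact h1
    · nlinarith
  let e : Pt ≃ P := Fintype.equivOfCardEq (h.trans hc.symm)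
  obtain ⟨l₀⟩ : Nonempty P := Fintype.card_pos_iff.1 (by rw [hc]; positivity)
  refine ⟨⟨P, this, inferInstance, l₀, fun l => univ.filter fun p => e p ∈ l, fun l => ?_,
    fun p => ?_, fun p p' hp => ?_, fun l l' hl => ?_⟩⟩
  · have h1 := ProjectivePlane.pointCount_eq P l
    rw [ho, pointCount, Nat.card_eq_fintype_card, Fintype.card_subtype] at h1
    rw [← h1]
    exact Finset.card_equiv e (by simp)
  · have h1 := ProjectivePlane.lineCount_eq P (e p)
    rw [ho, lineCount, Nat.card_eq_fintype_card, Fintype.card_subtype] at h1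
    simpa using h1
  · obtain ⟨l, -, hl⟩ := HasLines.existsUnique_line P P (e p) (e p') (e.injective.ne hp)
    refine Finset.card_le_one.2 fun a ha b hb => ?_
    simp only [mem_filter, mem_univ, true_and] at ha hb
    rw [hl a ha, hl b hb]
  · obtain ⟨p, hp, hu⟩ := HasPoints.existsUnique_point P P l l' hl
    refine Finset.card_eq_one.2 ⟨e.symm p, ?_⟩
    ext x
    simp only [mem_inter, mem_filter, mem_univ, true_and, mem_singleton]
    constructor
    · intro hx; rw [← hu _ hx]; simp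
    · rintro rfl; simpa using hp

/-- the point set -/
abbrev PT (m : ℕ) : Type := Fin 7 ⊕ (Fin m × Bool)

section build
variable {m q : ℕ} (Pl : Plane (PT m) q) {B : Type} [Fintype B] [DecidableEq B]
  (β : B → Finset (Fin 7)) (mx : Fin 4 → ℕ) (n₀ : Fin 4 → B → ℕ)

instance : Fintype Pl.L := Pl.fin
instance : DecidableEq Pl.L := Pl.dec

/-- blocks -/
def bl : B ⊕ Fin m → Finset (PT m)
  | Sum.inl b => (β b).map Function.Embedding.inl
  | Sum.inr j => {Sum.inr (j, false), Sum.inr (j, true)}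

/-- multiplicities of the blocks -/
def mz (q : ℕ) (c : Fin 4) : B ⊕ Fin m → ℕ
  | Sum.inl b => n₀ c b
  | Sum.inr _ => (q + 1) * mx c

theorem card_sigma {ι : Type} [Fintype ι] (n : Fin 4 → ι → ℕ) (P : ι → Prop) [DecidablePred P]
    (c : Fin 4) :
    (univ.filter fun x : Σ c : Fin 4, Σ i : ι, Fin (n c i) => P x.2.1 ∧ x.1 = c).card =
      ∑ i ∈ univ.filter P, n c i := by
  rw [Finset.card_filter, Fintype.sum_sigma, Finset.sum_eq_single c]
  · rw [Fintype.sum_sigma, Finset.sum_filter]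
    refine Finset.sum_congr rfl fun i _ => ?_
    by_cases h : P i <;> simp [h]
  · intro c' _ hc; simp [hc]
  · simp

/-- the model built from a plane and blocks -/
def build (R : ℕ) (hβ : ∀ b, 2 ≤ (β b).card ∧ (β b).card ≤ 4)
    (hn : ∀ c a, ∑ b ∈ univ.filter (fun b => a ∈ β b), n₀ c b = (q + 1) * mx c)
    (hR : ∀ c, R ≤ (q + 1) * mx c ∧ (q + 1) * mx c ≤ R + (q + 1)) :
    Model (PT m) (q + 1) (42 + 2 * m) R where
  X := Σ c : Fin 4, Σ _ : Pl.L, Fin (mx c)
  Z := Σ c : Fin 4, Σ b : B ⊕ Fin m, Fin (mz mx n₀ q c b)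
  finX := inferInstance
  finZ := inferInstance
  decX := inferInstance
  decZ := inferInstance
  lx x := Pl.ln x.2.1
  bz z := bl β z.2.1
  cx x := x.1
  cz z := z.1
  cardXZ p c := by
    rw [card_sigma (fun c _ => mx c) (fun l => p ∈ Pl.ln l) c,
      card_sigma (mz mx n₀ q) (fun b => p ∈ bl β b) c, Finset.sum_const, Pl.deg, smul_eq_mul,
      Finset.sum_filter, Fintype.sum_sum_type]
    rcases p with a | ⟨j, s⟩
    · rw [← hn c a, Finset.sum_filter]; simp [bl, mz]
    · cases s <;> simp [bl, mz]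
  card_lo p c := by
    rw [card_sigma (fun c _ => mx c) (fun l => p ∈ Pl.ln l) c, Finset.sum_const, Pl.deg]
    exact (hR c).1
  card_hi p c := by
    rw [card_sigma (fun c _ => mx c) (fun l => p ∈ Pl.ln l) c, Finset.sum_const, Pl.deg]
    exact (hR c).2
  pairX p p' c h := by
    simp only [← and_assoc]
    rw [card_sigma (fun c _ => mx c) (fun l => p ∈ Pl.ln l ∧ p' ∈ Pl.ln l) c, Finset.sum_const,
      smul_eq_mul]
    refine le_trans ?_ (hR c).2
    gcongr
    calc _ ≤ 1 * mx c := by gcongr; exact Pl.pair p p' h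
      _ = _ := one_mul _
  lx_card x := Pl.card_ln _
  bz_lo z := by
    rcases z with ⟨c, b | j, i⟩
    · simpa [bl] using (hβ b).1
    · simp [bl]
  bz_hi z := by
    rcases z with ⟨c, b | j, i⟩
    · simpa [bl] using (hβ b).2
    · simp [bl]
  Ps := (univ : Finset (Fin 7)).offDiag.image (fun a => (Sum.inl a.1, Sum.inl a.2)) ∪
    (univ : Finset (Fin m × Bool)).image fun a => (Sum.inr a, Sum.inr (a.1, !a.2))
  Ps_card := by
    refine (Finset.card_union_le _ _).trans (add_le_add (Finset.card_image_le.trans ?_)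
      (Finset.card_image_le.trans ?_))
    · simp
    · simp [mul_comm]
  Ps_mem z p p' h1 h2 h3 := by
    rcases z with ⟨c, b | j, i⟩
    · simp only [bl, mem_map, Function.Embedding.inl_apply] at h1 h2
      obtain ⟨a, -, rfl⟩ := h1
      obtain ⟨a', -, rfl⟩ := h2
      refine mem_union_left _ (mem_image.2 ⟨(a, a'), ?_, rfl⟩)
      simpa using h3
    · simp only [bl, mem_insert, mem_singleton] at h1 h2
      refine mem_union_right _ (mem_image.2 ?_)
      rcases h1 with rfl | rfl <;> rcases h2 with rfl | rfl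
      · exact absurd rfl h3
      · exact ⟨(j, false), mem_univ _, rfl⟩
      · exact ⟨(j, true), mem_univ _, rfl⟩
      · exact absurd rfl h3

end build

/-- Fano complements and one Fano line -/
def fano : Option (Fin 7) → Finset (Fin 7)
  | none => {1, 2, 4}
  | some i => {i, i + 3, i + 5, i + 6}

/-- the design in characteristic two -/
theorem design_two : ∃ (Pt : Type) (_ : Fintype Pt) (_ : DecidableEq Pt)
    (Ms : ∀ t : ℕ, Model Pt 65 4196 (260 * t)) (x₀ : ∀ t, (Ms (t + 1)).X), ∀ t,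
      (Ms (t + 1)).cx (x₀ t) = 1 ∧
      (∀ x y, Odd ((Ms (t + 1)).lx x ∩ (Ms (t + 1)).lx y).card) ∧
      ∃ z₀, (Ms (t + 1)).cz z₀ = 0 ∧
        ∀ z w, Odd ((Ms (t + 1)).bz z ∩ (Ms (t + 1)).bz w).card ↔ (z = z₀ ∧ w = z₀) := by
  classical
  have : Fact (Nat.Prime 2) := ⟨Nat.prime_two⟩
  have : Fintype (GaloisField 2 6) := Fintype.ofFinite _
  have hq : Fintype.card (GaloisField 2 6) = 64 := by
    rw [← Nat.card_eq_fintype_card, GaloisField.card 2 6 (by norm_num)]; norm_num
  obtain ⟨Pl⟩ : Nonempty (Plane (PT 2077) 64) := by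
    rw [← hq]; exact exists_plane _ _ (by rw [hq]; simp)
  let mx : ℕ → Fin 4 → ℕ := fun t c => if c = 0 then 4 * t + 1 else 4 * t
  let n₀ : ℕ → Fin 4 → Option (Fin 7) → ℕ := fun t c b =>
    if c = 0 then (if b = none then 1 else if b = some 0 then 65 * t + 17 else 65 * t + 16)
    else if b = none then 0 else 65 * t
  have hβ : ∀ b, 2 ≤ (fano b).card ∧ (fano b).card ≤ 4 := by decide
  have hn : ∀ t c a, ∑ b ∈ univ.filter (fun b => a ∈ fano b), n₀ t c b = (64 + 1) * mx t c := by
    intro t c a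
    rw [Finset.sum_filter, Fintype.sum_option, Fin.sum_univ_seven]
    by_cases hc : c = 0 <;> fin_cases a <;> simp [n₀, mx, hc, fano] <;> ring
  have hR : ∀ t c, 260 * t ≤ (64 + 1) * mx t c ∧ (64 + 1) * mx t c ≤ 260 * t + (64 + 1) := by
    intro t c
    simp only [mx]
    split_ifs <;> constructor <;> omega
  refine ⟨PT 2077, inferInstance, inferInstance,
    fun t => build Pl fano (mx t) (n₀ t) (260 * t) hβ (hn t) (hR t),
    fun t => ⟨1, Pl.l₀, ⟨0, by simp [mx]⟩⟩, fun t => ⟨rfl, fun x y => ?_,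
      ⟨0, Sum.inl none, ⟨0, by simp [mz, n₀]⟩⟩, rfl, ?_⟩⟩
  · change Odd (Pl.ln x.2.1 ∩ Pl.ln y.2.1).card
    by_cases h : x.2.1 = y.2.1
    · rw [h, inter_self, Pl.card_ln]; decide
    · rw [Pl.inter _ _ h]; decide
  · have key : ∀ z : (build Pl fano (mx (t + 1)) (n₀ (t + 1)) (260 * (t + 1)) hβ (hn _) (hR _)).Z,
        z = ⟨0, Sum.inl none, ⟨0, by simp [mz, n₀]⟩⟩ ↔ z.2.1 = Sum.inl none := by
      rintro ⟨c, b, i⟩
      refine ⟨fun h => by cases h; rfl, fun h => ?_⟩
      dsimp only at h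
      subst h
      by_cases hc : c = 0
      · subst hc
        obtain ⟨i, hi⟩ := i
        have : i = 0 := by simpa [mz, n₀] using hi
        subst this; rfl
      · exact absurd i.2 (by simp [mz, n₀, hc])
    intro z w
    rw [key, key]
    change Odd (bl fano z.2.1 ∩ bl fano w.2.1).card ↔ _
    generalize z.2.1 = b
    generalize w.2.1 = b'
    rcases b with b | j <;> rcases b' with b' | j'
    · simp only [bl, ← Finset.map_inter, card_map, Sum.inl.injEq]
      revert b b'; decide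
    · have : bl fano (Sum.inl b) ∩ bl fano (Sum.inr j' : _ ⊕ Fin 2077) = ∅ := by
        ext x; simp [bl]
      simp [this]
    · have : bl fano (Sum.inr j : _ ⊕ Fin 2077) ∩ bl fano (Sum.inl b') = ∅ := by
        ext x; simp [bl]
      simp [this]
    · by_cases h : j = j'
      · subst h; simp [bl]
      · have : bl fano (Sum.inr j : _ ⊕ Fin 2077) ∩ bl fano (Sum.inr j') = ∅ := by
          ext x; simp [bl, h]
        simp [this]

/-- a triple and a quadruple -/
def tq : Bool → Finset (Fin 7)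
  | false => {0, 1, 2}
  | true => {3, 4, 5, 6}

/-- weights on the seven distinguished points; `s` marks the special vertex -/
def w7 (c : Fin 4) (s : Bool) : Fin 7 → ℤ :=
  if s then (if c = 0 ∨ c = 2 then ![1, 1, 1, 1, -1, 1, -1] else ![1, 1, 1, 1, -1, -1, 1])
  else if c = 0 ∨ c = 1 then ![1, 1, 1, 1, 1, 1, 1] else ![1, 1, -2, 1, 1, -1, -1]

/-- colours of the left factors -/
def cA (i : Fin 2) : Fin 4 := i.castAdd 2
/-- colours of the right factors -/
def cB (i : Fin 2) : Fin 4 := i.natAdd 2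

/-- weights -/
def wt0 {m : ℕ} (c : Fin 4) (s : Bool) : PT m → ℤ
  | Sum.inl a => w7 c s a
  | Sum.inr (_, b) => if b = true ∧ ¬ (c = 0 ∨ c = 1) then -1 else 1

theorem sum_wt {m : ℕ} (i k : Fin 2) (b b' : Bool ⊕ Fin m) (s s' : Bool)
    (hs : s = true → b = Sum.inl true) (hs' : s' = true → b' = Sum.inl true) :
    ∑ p ∈ bl tq b ∩ bl tq b', wt0 (cA i) s p * wt0 (cB k) s' p =
      if i = k ∧ s = true ∧ s' = true then 4 else 0 := by
  rcases b with b | j <;> rcases b' with b' | j'
  · simp only [bl, ← Finset.map_inter, Finset.sum_map, Function.Embedding.inl_apply, wt0]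
    simp only [Sum.inl.injEq] at hs hs'
    revert i k b b' s s'; decide
  · have : bl tq (Sum.inl b) ∩ bl tq (Sum.inr j' : _ ⊕ Fin m) = ∅ := by
      ext x; simp [bl]
    cases s' <;> simp_all
  · have : bl tq (Sum.inr j : _ ⊕ Fin m) ∩ bl tq (Sum.inl b') = ∅ := by
      ext x; simp [bl]
    cases s <;> simp_all
  · have h1 : s = false := by cases s <;> simp_all
    subst h1
    by_cases h : j = j'
    · subst h
      rw [inter_self, bl, Finset.sum_pair (by simp)]
      simp only [wt0]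
      clear hs hs'
      revert i k s'; decide
    · have : bl tq (Sum.inr j : _ ⊕ Fin m) ∩ bl tq (Sum.inr j') = ∅ := by
        ext x; simp [bl, h]
      simp [this]

/-- the design in odd characteristic -/
theorem design_odd (F : Type) [Field F] [Fintype F] (q : ℕ) (hq : Fintype.card F = q) (ho : Odd q)
    (h64 : 64 ≤ q) : ∃ (Pt : Type) (_ : Fintype Pt) (_ : DecidableEq Pt) (Np : ℕ)
    (Ms : ∀ t : ℕ, Model Pt (q + 1) Np ((q + 1) * t)) (_ : ∀ t, (Ms (t + 1)).X),
      Np < (q + 1) ^ 2 ∧ ∀ t,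
      (∀ x y, ((Ms (t + 1)).lx x ∩ (Ms (t + 1)).lx y).card = 1 ∨
        ((Ms (t + 1)).lx x ∩ (Ms (t + 1)).lx y).card = q + 1) ∧
      ∃ (wt : (Ms (t + 1)).Z → Pt → ℤ) (zs : Fin 4 → (Ms (t + 1)).Z),
        (∀ c, (Ms (t + 1)).cz (zs c) = c) ∧
        (∀ z p, wt z p = 1 ∨ wt z p = -1 ∨ wt z p = -2) ∧
        (∀ i z p, (Ms (t + 1)).cz z = cA i → wt z p = 1 ∨ wt z p = -1) ∧
        ∀ i k z w, (Ms (t + 1)).cz z = cA i → (Ms (t + 1)).cz w = cB k →
          ∑ p ∈ (Ms (t + 1)).bz z ∩ (Ms (t + 1)).bz w, wt z p * wt w p =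
            if i = k ∧ z = zs (cA i) ∧ w = zs (cB k) then 4 else 0 := by
  classical
  obtain ⟨m, hm⟩ : ∃ m, 7 + m * 2 = q ^ 2 + q + 1 := by
    obtain ⟨r, rfl⟩ := ho
    exact ⟨2 * r ^ 2 + 3 * r - 2, by
      have : 2 ≤ 3 * r := by omega
      zify [show 2 ≤ 2 * r ^ 2 + 3 * r by omega]; ring⟩
  obtain ⟨Pl⟩ : Nonempty (Plane (PT m) q) := by
    rw [← hq]; exact exists_plane _ _ (by rw [hq, ← hm]; simp)
  have hβ : ∀ b, 2 ≤ (tq b).card ∧ (tq b).card ≤ 4 := by decide
  have hn : ∀ (t : ℕ) (_ : Fin 4) (a : Fin 7),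
      ∑ b ∈ univ.filter (fun b => a ∈ tq b), (q + 1) * t = (q + 1) * t := by
    intro t c a
    rw [Finset.sum_const, show (univ.filter (fun b => a ∈ tq b)).card = 1 by revert a; decide,
      one_smul]
  have hR : ∀ (t : ℕ) (_ : Fin 4), (q + 1) * t ≤ (q + 1) * t ∧
      (q + 1) * t ≤ (q + 1) * t + (q + 1) := fun t c => ⟨le_rfl, Nat.le_add_right _ _⟩
  refine ⟨PT m, inferInstance, inferInstance, 42 + 2 * m,
    fun t => build Pl tq (fun _ => t) (fun _ _ => (q + 1) * t) ((q + 1) * t) hβ (hn t) (hR t),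
    fun t => ⟨1, Pl.l₀, 0⟩, by nlinarith, fun t => ⟨fun x y => ?_, ?_⟩⟩
  · change (Pl.ln x.2.1 ∩ Pl.ln y.2.1).card = 1 ∨ (Pl.ln x.2.1 ∩ Pl.ln y.2.1).card = q + 1
    by_cases h : x.2.1 = y.2.1
    · right; rw [h, inter_self, Pl.card_ln]
    · left; exact Pl.inter _ _ h
  let M := build Pl tq (fun _ => t + 1) (fun _ _ => (q + 1) * (t + 1)) ((q + 1) * (t + 1)) hβ
    (hn _) (hR _)
  let zs : Fin 4 → M.Z := fun c => ⟨c, Sum.inl true, ⟨0, by simp [mz]⟩⟩
  let wt : M.Z → PT m → ℤ := fun z p => wt0 z.1 (decide (z = zs z.1)) p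
  have a1 : ∀ (c : Fin 4) (s : Bool) (p : PT m),
      wt0 c s p = 1 ∨ wt0 c s p = -1 ∨ wt0 c s p = -2 := by
    rintro c s (a | ⟨j, b⟩)
    · simp only [wt0]; revert a s c; decide
    · simp only [wt0]; split_ifs <;> simp
  have a2 : ∀ (i : Fin 2) (s : Bool) (p : PT m), wt0 (cA i) s p = 1 ∨ wt0 (cA i) s p = -1 := by
    rintro c s (a | ⟨j, b⟩)
    · simp only [wt0]; revert a s c; decide
    · simp only [wt0]; split_ifs <;> simp
  have a3 : ∀ z : M.Z, decide (z = zs z.1) = true → z.2.1 = Sum.inl true := fun z h =>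
    congrArg (fun z : M.Z => z.2.1) (of_decide_eq_true h)
  refine ⟨wt, zs, fun c => rfl, fun z p => a1 _ _ _, fun i z p h => ?_, fun i k z w hz hw => ?_⟩
  · change z.1 = _ at h
    have := a2 i (decide (z = zs z.1)) p
    rw [← h] at this
    exact this
  · change z.1 = _ at hz
    change w.1 = _ at hw
    have := sum_wt i k z.2.1 w.2.1 _ _ (a3 z) (a3 w)
    rw [← hz, ← hw] at this
    refine Eq.trans this ?_
    rw [← hz, ← hw]
    simp only [decide_eq_true_eq]

end Crest.Agent.DF
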