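import Crest.Agent.DF.F2
/-! Central extensions defined by voltages, and the product formula in odd characteristic. -/
set_option autoImplicit false
namespace Crest.Agent.DF
open Finset Crest.Agent.ZD
open FreeGroup (mk invRev mul_mk inv_mk)

theorem exists_ext_group {S : Type} [Finite S] (Γ : LG S)
    (asph : ∀ l : List (FreeGroup S × Γ.Cyc), fprod Γ.cw l = 1 →
      fchain (wrep Γ.pr Γ) (Γ.cch Γ.pr) l = 0)
    (Ω : Type) [CommGroup Ω] [Finite Ω] (v : Γ.V → S → Ω) :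
    ∃ (H : Type) (_ : Group H) (ζ : Ω →* H) (s : S → H) (a : Γ.V → H), Group.FG H ∧
      Function.Injective ζ ∧ (∀ ω g, ζ ω * g = g * ζ ω) ∧
      ∀ x y p, Γ.run x [(p, true)] = some y → a y = a x * s p * ζ (v x p) := by
  let φ : (Γ.Grp × Γ.V × S →₀ ℤ) →ₗ[ℤ] Additive Ω :=
    Finsupp.linearCombination ℤ fun q => Additive.ofMul (v q.2.1 q.2.2)
  have hφ : ∀ g c, φ (wrep Γ.pr Γ g c) = φ c := by
    intro g c
    have : φ ∘ₗ wrep Γ.pr Γ g = φ := by
      refine Finsupp.lhom_ext fun q n => ?_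
      simp [φ, wrep, Finsupp.mapDomain_single]
    exact LinearMap.congr_fun this c
  let N : Subgroup (FreeGroup S × Ω) :=
    Subgroup.normalClosure (Set.range fun q : Γ.Cyc => (mk (Γ.cw q), (φ (Γ.cch Γ.pr q)).toMul))
  have : N.Normal := Subgroup.normalClosure_normal
  let π := QuotientGroup.mk' N
  obtain ⟨a, ha⟩ := exists_potential Γ (fun x u => π (mk u, (φ (wch Γ.pr Γ 1 x u)).toMul))
    (fun x y u w h => by
      rw [← map_mul, wch_append _ _ _ h, map_add, one_mul, ← mul_one (Γ.pr (mk u)), ← wrep_wch,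
        hφ, ← mul_mk]
      rfl)
    (fun x u h => (QuotientGroup.eq_one_iff _).2 (Subgroup.subset_normalClosure ⟨⟨(x, u), h⟩, rfl⟩))
  refine ⟨_, inferInstance, π.comp (MonoidHom.inr _ _), fun p => π (FreeGroup.of p, 1), a,
    Group.fg_of_surjective (QuotientGroup.mk'_surjective N), ?_, fun ω g => ?_, fun x y p h => ?_⟩
  · rw [injective_iff_map_eq_one]
    intro ω hω
    have h1 : ((1 : FreeGroup S), ω) ∈ N := (QuotientGroup.eq_one_iff _).1 hω
    let T : Subgroup (FreeGroup S × Ω) :=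
      { carrier := {w | ∃ l : List (FreeGroup S × Γ.Cyc),
          (fprod Γ.cw l, (φ (fchain (wrep Γ.pr Γ) (Γ.cch Γ.pr) l)).toMul) = w}
        mul_mem' := by
          rintro _ _ ⟨l, rfl⟩ ⟨l', rfl⟩
          exact ⟨l ++ l', by simp⟩
        one_mem' := ⟨[], by simp⟩
        inv_mem' := by
          rintro _ ⟨l, rfl⟩
          exact ⟨finv l, by rw [fprod_finv, fchain_finv Γ.pr_cyc]; simp⟩ }
    have : T.Normal := ⟨by
      rintro _ ⟨l, rfl⟩ k
      exact ⟨fconj k.1 l, by rw [fprod_fconj, fchain_fconj, hφ]; ext <;> simp⟩⟩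
    have h2 : N ≤ T := Subgroup.normalClosure_le_normal (by
      rintro _ ⟨q, rfl⟩
      exact ⟨[(1, q)], by simp⟩)
    obtain ⟨l, hl⟩ := h2 h1
    obtain ⟨h3, h4⟩ := Prod.ext_iff.1 hl
    dsimp only at h3 h4
    rw [← h4, asph l h3]; simp
  · obtain ⟨g, rfl⟩ := QuotientGroup.mk'_surjective N g
    change π _ * π g = π g * π _
    rw [← map_mul, ← map_mul]
    congr 1
    ext <;> simp [mul_comm]
  · rw [ha _ _ _ h, mul_assoc]
    congr 1
    change _ = π _ * π _
    rw [LG.run_singleton] at h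
    rw [← map_mul, wch_cons _ _ _ h]
    congr 1
    ext
    · simp [FreeGroup.of]
    · simp [φ]

section odd
variable {Pt : Type} [Fintype Pt] [DecidableEq Pt] {k Np R : ℕ} (M : Model Pt k Np R)

/-- the product formula in odd characteristic -/
theorem odd_prod (σ : M.Conf) (hσ : M.Col σ) (q : ℕ)
    (hX : ∀ x y, (M.lx x ∩ M.lx y).card = 1 ∨ (M.lx x ∩ M.lx y).card = q + 1)
    (wt : M.Z → Pt → ℤ) (c c' : Fin 4) (z₀ w₀ : M.Z) (n : ℤ) (hc : M.cz z₀ = c) (hc' : M.cz w₀ = c')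
    (h1 : ∀ z p, M.cz z = c → wt z p = 1 ∨ wt z p = -1)
    (h2 : ∀ z w, M.cz z = c → M.cz w = c' →
      ∑ p ∈ M.bz z ∩ M.bz w, wt z p * wt w p = if z = z₀ ∧ w = w₀ then n else 0)
    {H A : Type} [Group H] [Ring A] (f : H →* A) (hq : (q : A) = 0) (s : Pt → H)
    (ζ : M.Z → Pt → H) (hζ : ∀ z p, f (ζ z p) = wt z p) (a : M.X ⊕ M.Z → H)
    (ha : ∀ p (x : {x // p ∈ M.lx x}),
      a (Sum.inr (σ p x).1) = a (Sum.inl x.1) * s p * ζ (σ p x).1 p) :
    (∑ x, if M.cx x = c then f ((a (Sum.inr z₀))⁻¹ * a (Sum.inl x)) else 0) *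
      (∑ y, if M.cx y = c' then f ((a (Sum.inl y))⁻¹ * a (Sum.inr w₀)) else 0) = n := by
  let G : M.X ⊕ M.Z → M.X ⊕ M.Z → A := fun u v =>
    f ((a (Sum.inr z₀))⁻¹ * a u) * f ((a v)⁻¹ * a (Sum.inr w₀))
  have key := handshake M σ
    (fun x y => if M.cx x = c ∧ M.cx y = c' then G (Sum.inl x) (Sum.inl y) else 0)
    (fun p z w => if M.cz z = c ∧ M.cz w = c' then
      (wt z p * wt w p) • G (Sum.inr z) (Sum.inr w) else 0) (fun p x y => by
      rw [hσ, hσ]
      split_ifs with h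
      · have e1 : f (ζ (σ p x).1 p)⁻¹ = wt (σ p x).1 p := by
          have e2 : f (ζ (σ p x).1 p)⁻¹ * f (ζ (σ p x).1 p) = 1 := by
            rw [← map_mul, inv_mul_cancel, map_one]
          rw [hζ] at e2
          rcases h1 _ p ((hσ p x).trans h.1) with e | e <;> rw [e] at e2 ⊢
          · simpa using e2
          · simpa [neg_eq_iff_eq_neg] using e2
        have e3 : G (Sum.inl x.1) (Sum.inl y.1) =
            f ((a (Sum.inr z₀))⁻¹ * a (Sum.inr (σ p x).1)) * (f (ζ (σ p x).1 p)⁻¹ *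
              f (ζ (σ p y).1 p)) * f ((a (Sum.inr (σ p y).1))⁻¹ * a (Sum.inr w₀)) := by
          simp only [G, ← map_mul, ha]
          congr 1; group
        rw [e3, e1, hζ, ← Int.cast_mul, ← zsmul_one, mul_smul_comm, mul_one, smul_mul_assoc]
      · rfl)
  have e4 : ∀ x y (t : A), (M.lx x ∩ M.lx y).card • t = t := fun x y t => by
    rcases hX x y with e | e <;> rw [e]
    · rw [one_smul]
    · rw [nsmul_eq_mul]; simp [hq]
  have e5 : ∀ z w, (∑ p ∈ M.bz z ∩ M.bz w, if M.cz z = c ∧ M.cz w = c' then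
      (wt z p * wt w p) • G (Sum.inr z) (Sum.inr w) else 0) =
      if w = w₀ then (if z = z₀ then (n : A) else 0) else 0 := fun z w => by
    by_cases h : M.cz z = c ∧ M.cz w = c'
    · simp only [h, and_self, if_true]
      rw [← Finset.sum_smul, h2 z w h.1 h.2]
      by_cases hz : z = z₀ <;> by_cases hw : w = w₀ <;> simp [hz, hw, G, ← map_mul]
    · simp only [h, if_false, Finset.sum_const_zero]
      split_ifs with hw hz
      · exact absurd ⟨hz ▸ hc, hw ▸ hc'⟩ h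
      · rfl
      · rfl
  simp only [e4, e5, Finset.sum_ite_eq', Finset.mem_univ, if_true] at key
  rw [Finset.sum_mul_sum, ← key]
  refine Finset.sum_congr rfl fun x _ => Finset.sum_congr rfl fun y _ => ?_
  by_cases h1 : M.cx x = c <;> by_cases h2 : M.cx y = c' <;> simp only [h1, h2, G] <;> simp

end odd

/-- A finitely generated central extension with a `2 × 2` system of one-sided inverses. -/
theorem exists_ext (F : Type) [Field F] [Fintype F] (q : ℕ) (hq : Fintype.card F = q) (ho : Odd q)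
    (h64 : 64 ≤ q) (Ω : Type) [CommGroup Ω] [Finite Ω] (u : ℤ → Ω) :
    ∃ (H : Type) (_ : Group H) (ζ : Ω →* H) (X Y : Fin 2 → MonoidAlgebra ℤ H), Group.FG H ∧
      Function.Injective ζ ∧ (∀ ω g, ζ ω * g = g * ζ ω) ∧
      ∀ (A : Type) [Ring A] (Φ : MonoidAlgebra ℤ H →+* A), (q : A) = 0 →
        (∀ n : ℤ, n = 1 ∨ n = -1 ∨ n = -2 → Φ (MonoidAlgebra.single (ζ (u n)) 1) = n) →
        ∀ i k, Φ (X i) * Φ (Y k) = if i = k then 4 else 0 := by
  classical
  obtain ⟨Pt, _, _, Np, Ms, x₀, hN, h⟩ := design_odd F q hq ho h64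
  obtain ⟨t, σ, hσ, hm⟩ := mach Pt (q + 1) Np (q + 1) (by omega) hN (by omega) Ms x₀
  obtain ⟨hX, wt, zs, b1, b2, b3, b4⟩ := h t
  let M := Ms (t + 1)
  obtain ⟨H, _, ζ, s, a, c1, c2, c3, c4⟩ := exists_ext_group (M.graph σ) hm.asph Ω
    (Sum.elim (fun x p => if h : p ∈ M.lx x then u (wt (σ p ⟨x, h⟩).1 p) else 1) fun _ _ => 1)
  refine ⟨H, inferInstance, ζ,
    fun i => ∑ x, if M.cx x = cA i then
      MonoidAlgebra.single ((a (Sum.inr (zs (cA i))))⁻¹ * a (Sum.inl x)) 1 else 0,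
    fun k => ∑ y, if M.cx y = cB k then
      MonoidAlgebra.single ((a (Sum.inl y))⁻¹ * a (Sum.inr (zs (cB k)))) 1 else 0,
    c1, c2, c3, fun A _ Φ hA hΦ i k => ?_⟩
  have := odd_prod M σ hσ q hX wt (cA i) (cB k) (zs (cA i)) (zs (cB k)) (if i = k then 4 else 0)
    (b1 _) (b1 _) (b3 i) (fun z w hz hw => by
      rw [b4 i k z w hz hw]
      by_cases e : i = k <;> simp [e])
    (Φ.toMonoidHom.comp (MonoidAlgebra.of ℤ H)) hA s (fun z p => ζ (u (wt z p)))
    (fun z p => hΦ _ (b2 z p)) a (fun p x => by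
      rw [c4 _ _ _ (run_edge M σ p x)]
      simp [x.2])
  simp only [map_sum, apply_ite Φ, map_zero]
  rw [show (if i = k then (4 : A) else 0) = ((if i = k then 4 else 0 : ℤ) : A) by
    split_ifs <;> simp, ← this]
  rfl

end Crest.Agent.DF
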