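import Crest.Agent.DF.Hand
import Crest.Agent.ZD.Diam0
import Crest.Agent.ZD.Tors
import Crest.Agent.ZD.CW
import Crest.Agent.ZD.Contr
/-! The final group over `𝔽₂`. -/
set_option autoImplicit false
namespace Crest.Agent.DF
open Finset Crest.Agent.ZD

theorem mach : MachStmt :=
  mach_of (diam_of fun _ _ _ _ _ _ M g B => switching M g B)

theorem exists_f2_final : ∃ (G : Type) (_ : Group G), Group.IsFinitelyPresented G ∧
    (∀ g : G, IsOfFinOrder g → g = 1) ∧ Crest.Topology.HasFiniteClassifyingComplex G 2 ∧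
      ∃ a b c : MonoidAlgebra (ZMod 2) G, a * b = 1 ∧ a * c = 0 ∧ c ≠ 0 := by
  obtain ⟨S, _, _, Γ, U, x₀, _, hm, h⟩ := exists_f2 mach
  obtain ⟨K⟩ := hm.osc
  exact ⟨Γ.Grp, inferInstance, hm.fp, K.torsionFree, K.cw K.contractible, h⟩

/-- the group algebra over `𝔽₂` of a residually finite group is directly finite -/
theorem not_rf {G : Type} [Group G] {a b c : MonoidAlgebra (ZMod 2) G} (hab : a * b = 1)
    (hac : a * c = 0) (hc : c ≠ 0) : ¬ Group.ResiduallyFinite G := by
  classical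
  intro hG
  have hsep : ∀ q : G × G, ∃ H : FiniteIndexNormalSubgroup G, q.1 ≠ q.2 → q.1⁻¹ * q.2 ∉ H := by
    intro q
    by_cases h : q.1 = q.2
    · exact ⟨FiniteIndexNormalSubgroup.ofSubgroup ⊤, fun h' => absurd h h'⟩
    · obtain ⟨H, hH⟩ := Group.exists_finiteIndexNormalSubgroup_notMem (q.1⁻¹ * q.2)
        fun h' => h (eq_of_inv_mul_eq_one h')
      exact ⟨H, fun _ => hH⟩
  choose H hH using hsep
  let s := c.coeff.support ×ˢ c.coeff.support
  let f : G →* ∀ q : s, G ⧸ (H q.1).toSubgroup :=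
    MonoidHom.pi fun q => QuotientGroup.mk' (H q.1).toSubgroup
  have hf : Set.InjOn f c.coeff.support := by
    intro x hx y hy hxy
    by_contra hne
    have := congrFun hxy ⟨(x, y), Finset.mem_product.2 ⟨hx, hy⟩⟩
    exact hH (x, y) hne (QuotientGroup.eq.1 this)
  let Φ := MonoidAlgebra.mapDomainRingHom (ZMod 2) f
  have h1 : Φ a * Φ b = 1 := by rw [← map_mul, hab, map_one]
  have : Finite (MonoidAlgebra (ZMod 2) (∀ q : s, G ⧸ (H q.1).toSubgroup)) :=
    Finite.of_injective (fun t => (t.coeff : _ → ZMod 2)) fun t u h => by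
      ext x; exact congrFun h x
  have h2 : Φ b * Φ a = 1 := mul_eq_one_comm.1 h1
  have h3 : Φ c = 0 := by
    rw [← one_mul (Φ c), ← h2, mul_assoc, ← map_mul, hac, map_zero, mul_zero]
  obtain ⟨x, hx⟩ : c.coeff.support.Nonempty := by
    rw [Finsupp.support_nonempty_iff]
    intro h; exact hc (by ext x; simp [h])
  have h4 : (Φ c).coeff (f x) = c.coeff x :=
    Finsupp.mapDomain_apply' _ _ subset_rfl hf hx
  rw [h3] at h4
  exact Finsupp.mem_support_iff.1 hx (by simpa using h4.symm)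

end Crest.Agent.DF
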