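import Mathlib
/-! Fuglede–Kadison log-determinant along differentiable paths in a C⋆-algebra with a trace. -/
set_option autoImplicit false
namespace Crest.Agent.DF
open Filter Topology

variable {B : Type*} [CStarAlgebra B]

/-- power series of the logarithm -/
theorem log_series {S : B} (hS : IsSelfAdjoint S) {c r : ℝ} (hc : 0 < c) (hr : r < 1)
    (h : ‖1 - c • S‖ ≤ r) :
    HasSum (fun k : ℕ => ((k : ℝ) + 1)⁻¹ • (1 - c • S) ^ (k + 1))
      (-(cfc Real.log S) - Real.log c • (1 : B)) := by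
  have hr0 : 0 ≤ r := (norm_nonneg _).trans h
  have hsp : ∀ x ∈ spectrum ℝ S, |1 - c * x| ≤ r := by
    intro x hx
    have h1 : (1 : B) - c • S = cfc (fun x : ℝ => 1 - c * x) S := by
      rw [cfc_sub _ _ S, cfc_const_one ℝ S, cfc_const_mul_id c S]
    have h2 := norm_apply_le_norm_cfc (fun x : ℝ => 1 - c * x) S hx
    rw [← h1] at h2
    exact h2.trans h
  have hsum : Summable fun k : ℕ => r ^ (k + 1) :=
    (summable_nat_add_iff 1).2 (summable_geometric_of_lt_one hr0 hr)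
  have hinv : ∀ k : ℕ, |((k : ℝ) + 1)⁻¹| ≤ 1 := fun k => by
    rw [abs_of_pos (by positivity)]
    exact inv_le_one_of_one_le₀ (by linarith [Nat.cast_nonneg (α := ℝ) k])
  have hs : Summable fun k : ℕ => ((k : ℝ) + 1)⁻¹ • (1 - c • S) ^ (k + 1) := by
    refine Summable.of_norm_bounded hsum fun k => ?_
    rw [norm_smul, Real.norm_eq_abs]
    calc _ ≤ 1 * r ^ (k + 1) := by
          gcongr
          · exact hinv k
          · exact (norm_pow_le' _ (Nat.succ_pos k)).trans (by gcongr)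
      _ = _ := one_mul _
  have hu : TendstoUniformlyOn
      (fun N x => ∑ k ∈ Finset.range N, ((k : ℝ) + 1)⁻¹ * (1 - c * x) ^ (k + 1))
      (fun x => ∑' k : ℕ, ((k : ℝ) + 1)⁻¹ * (1 - c * x) ^ (k + 1)) atTop (spectrum ℝ S) := by
    refine tendstoUniformlyOn_tsum_nat hsum fun k x hx => ?_
    rw [norm_mul, norm_pow, Real.norm_eq_abs, Real.norm_eq_abs]
    calc _ ≤ 1 * r ^ (k + 1) := by
          gcongr
          · exact hinv k
          · exact hsp x hx
      _ = _ := one_mul _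
  have ht := tendsto_cfc_fun (a := S) hu (Eventually.of_forall fun N => by fun_prop)
  have hpos : ∀ x ∈ spectrum ℝ S, 0 < x := fun x hx => by
    have := (abs_le.1 (hsp x hx)).2
    by_contra hx0
    push Not at hx0
    nlinarith
  have e1 : cfc (fun x : ℝ => ∑' k : ℕ, ((k : ℝ) + 1)⁻¹ * (1 - c * x) ^ (k + 1)) S =
      -(cfc Real.log S) - Real.log c • (1 : B) := by
    have hl : ContinuousOn Real.log (spectrum ℝ S) :=
      Real.continuousOn_log.mono fun x hx => (hpos x hx).ne'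
    rw [← cfc_neg, ← Algebra.algebraMap_eq_smul_one, ← cfc_const (Real.log c) S,
      ← cfc_sub (fun x => -Real.log x) _ S hl.neg]
    refine cfc_congr fun x hx => ?_
    have h1 := Real.hasSum_pow_div_log_of_abs_lt_one ((hsp x hx).trans_lt hr)
    have h2 : (fun k : ℕ => ((k : ℝ) + 1)⁻¹ * (1 - c * x) ^ (k + 1)) =
        fun k : ℕ => (1 - c * x) ^ (k + 1) / ((k : ℝ) + 1) := by
      funext k; ring
    simp only [h2, h1.tsum_eq, sub_sub_cancel]
    rw [Real.log_mul hc.ne' (hpos x hx).ne']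
    ring
  have e2 : ∀ N, cfc (fun x : ℝ => ∑ k ∈ Finset.range N, ((k : ℝ) + 1)⁻¹ * (1 - c * x) ^ (k + 1))
      S = ∑ k ∈ Finset.range N, ((k : ℝ) + 1)⁻¹ • (1 - c • S) ^ (k + 1) := by
    intro N
    have := cfc_sum (fun (k : ℕ) (x : ℝ) => ((k : ℝ) + 1)⁻¹ * (1 - c * x) ^ (k + 1)) S
      (Finset.range N)
    rw [← Finset.sum_fn] at *
    rw [this]
    refine Finset.sum_congr rfl fun k _ => ?_
    rw [cfc_const_mul _ _ S, cfc_pow _ _ S, cfc_sub _ _ S, cfc_const_one ℝ S, cfc_const_mul_id c S]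
  simp only [e1, e2] at ht
  exact hs.hasSum_iff_tendsto_nat.2 ht

theorem norm_one_sub_lt [Nontrivial B] {y : B} (hy : IsUnit y) :
    ‖1 - ‖star y * y‖⁻¹ • (star y * y)‖ < 1 := by
  set S := star y * y with hSd
  have hS : IsSelfAdjoint S := IsSelfAdjoint.star_mul_self y
  have hu : IsUnit S := hy.star.mul hy
  have hn : 0 < ‖S‖ := norm_pos_iff.2 hu.ne_zero
  have h1 : (1 : B) - ‖S‖⁻¹ • S = cfc (fun x : ℝ => 1 - ‖S‖⁻¹ * x) S := by
    rw [cfc_sub _ _ S, cfc_const_one ℝ S, cfc_const_mul_id _ S]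
  rw [h1]
  refine norm_cfc_lt one_pos fun x hx => ?_
  have h0 : 0 ≤ x := spectrum_star_mul_self_nonneg x hx
  have h0' : x ≠ 0 := by
    rintro rfl
    exact (spectrum.zero_notMem_iff ℝ).2 hu hx
  have hle : x ≤ ‖S‖ := (le_abs_self x).trans (spectrum.norm_le_norm_of_mem hx)
  have hx0 : 0 < x := lt_of_le_of_ne h0 (Ne.symm h0')
  rw [Real.norm_eq_abs, abs_lt]
  have h2 : 0 < ‖S‖⁻¹ * x := by positivity
  have h3 : ‖S‖⁻¹ * x ≤ 1 := by rw [inv_mul_le_iff₀ hn]; simpa using hle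
  constructor <;> linarith

/-- a continuous functional, tracial on a star subalgebra -/
structure TrData (B : Type*) [CStarAlgebra B] where
  A : StarSubalgebra ℂ B
  τ : B →L[ℂ] ℂ
  tr : ∀ x ∈ A, ∀ y ∈ A, τ (x * y) = τ (y * x)
  st : ∀ x, τ (star x) = starRingEnd ℂ (τ x)

namespace TrData
variable (D : TrData B)

/-- `τ log (y⋆ y)` -/
noncomputable def L (y : B) : ℝ := (D.τ (cfc Real.log (star y * y))).re

theorem hasDerivAt_pow {x : ℝ → B} {x' : B} {t : ℝ} (hx : HasDerivAt x x' t) (h1 : x t ∈ D.A)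
    (h2 : x' ∈ D.A) (k : ℕ) : ∃ d ∈ D.A, HasDerivAt (fun s => x s ^ (k + 1)) d t ∧
      ∀ m : ℕ, D.τ (d * x t ^ m) = ((k : ℂ) + 1) * D.τ (x t ^ (k + m) * x') := by
  induction k with
  | zero =>
    refine ⟨x', h2, by simpa using hx, fun m => ?_⟩
    rw [D.tr _ h2 _ (pow_mem h1 m)]; simp
  | succ k ih =>
    obtain ⟨d, hd, hd1, hd2⟩ := ih
    refine ⟨d * x t + x t ^ (k + 1) * x', add_mem (mul_mem hd h1) (mul_mem (pow_mem h1 _) h2),
      ?_, fun m => ?_⟩
    · have := hd1.mul hx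
      refine this.congr_of_eventuallyEq (Eventually.of_forall fun s => ?_)
      simp [pow_succ]
    · rw [add_mul, map_add, mul_assoc, ← pow_succ', hd2 (m + 1),
        D.tr _ (mul_mem (pow_mem h1 _) h2) _ (pow_mem h1 m), ← mul_assoc, ← pow_add]
      rw [show k + (m + 1) = k + 1 + m by ring, show m + (k + 1) = k + 1 + m by ring]
      push_cast; ring

theorem hasDerivAt_L [Nontrivial B] {y y' w : ℝ → B} (hy : ∀ t, HasDerivAt y (y' t) t)
    (hc : Continuous y') (hA : ∀ t, y t ∈ D.A) (hA' : ∀ t, y' t ∈ D.A) (hw : ∀ t, w t ∈ D.A)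
    (h1 : ∀ t, y t * w t = 1) (h2 : ∀ t, w t * y t = 1) (t₀ : ℝ) :
    HasDerivAt (fun t => D.L (y t)) (2 * (D.τ (y' t₀ * w t₀)).re) t₀ := by
  set S : ℝ → B := fun t => star (y t) * y t with hS
  set S' : ℝ → B := fun t => star (y' t) * y t + star (y t) * y' t with hS'
  have hyc : Continuous y := continuous_iff_continuousAt.2 fun t => (hy t).continuousAt
  have hSd : ∀ t, HasDerivAt S (S' t) t := fun t => by
    have := ((starL' ℝ : B ≃L[ℝ] B).toContinuousLinearMap.hasFDerivAt.comp_hasDerivAt t (hy t)).mul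
      (hy t)
    exact this
  have hSc : Continuous S := by simp only [hS]; fun_prop
  have hS'c : Continuous S' := by simp only [hS']; fun_prop
  have hu : ∀ t, IsUnit (y t) := fun t => ⟨⟨y t, w t, h1 t, h2 t⟩, rfl⟩
  set c : ℝ := ‖S t₀‖⁻¹ with hcd
  have hc0 : 0 < c := inv_pos.2 (norm_pos_iff.2 ((hu t₀).star.mul (hu t₀)).ne_zero)
  have hlt : ‖1 - c • S t₀‖ < 1 := norm_one_sub_lt (hu t₀)
  obtain ⟨r, hr1, hr2⟩ := exists_between hlt
  have hr0 : 0 ≤ r := (norm_nonneg _).trans hr1.le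
  have hev : ∀ᶠ t in 𝓝 t₀, ‖1 - c • S t‖ < r ∧ ‖S' t‖ < ‖S' t₀‖ + 1 := by
    refine Eventually.and ?_ ?_
    · exact (by fun_prop : Continuous fun t => ‖1 - c • S t‖).continuousAt.eventually_lt
        continuousAt_const hr1
    · exact (by fun_prop : Continuous fun t => ‖S' t‖).continuousAt.eventually_lt
        continuousAt_const (by linarith)
  obtain ⟨ε, hε, hball⟩ := Metric.eventually_nhds_iff_ball.1 hev
  set x : ℝ → B := fun t => 1 - c • S t with hx
  have hxd : ∀ t, HasDerivAt x (-(c • S' t)) t := fun t => by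
    have := ((hSd t).const_smul c).const_sub 1
    exact this
  have hSA : ∀ t, S t ∈ D.A := fun t => mul_mem (star_mem (hA t)) (hA t)
  have hS'A : ∀ t, S' t ∈ D.A := fun t =>
    add_mem (mul_mem (star_mem (hA' t)) (hA t)) (mul_mem (star_mem (hA t)) (hA' t))
  have hsm : ∀ (a : ℝ) (z : B), z ∈ D.A → a • z ∈ D.A := fun a z hz => by
    rw [← Complex.coe_smul]; exact D.A.smul_mem hz _
  have hxA : ∀ t, x t ∈ D.A := fun t => sub_mem (one_mem _) (hsm _ _ (hSA t))
  have hg : ∀ (k : ℕ) t, HasDerivAt (fun s => D.τ (((k : ℝ) + 1)⁻¹ • x s ^ (k + 1)))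
      (D.τ (x t ^ k * -(c • S' t))) t := by
    intro k t
    obtain ⟨d, -, hd1, hd2⟩ := D.hasDerivAt_pow (hxd t) (hxA t) (neg_mem (hsm _ _ (hS'A t))) k
    have h3 := (D.τ.restrictScalars ℝ).hasFDerivAt.comp_hasDerivAt t
      (hd1.const_smul ((k : ℝ) + 1)⁻¹)
    have h4 := hd2 0
    simp only [pow_zero, mul_one, add_zero] at h4
    refine HasDerivAt.congr_deriv (f := fun s => D.τ (((k : ℝ) + 1)⁻¹ • x s ^ (k + 1))) h3
      (Eq.symm ?_)
    rw [ContinuousLinearMap.coe_restrictScalars', ← Complex.coe_smul ((k : ℝ) + 1)⁻¹, map_smul, h4,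
      smul_eq_mul, ← mul_assoc]
    push_cast
    rw [inv_mul_cancel₀ (by exact_mod_cast Nat.succ_ne_zero k), one_mul]
  have hser : ∀ t ∈ Metric.ball t₀ ε, HasSum (fun k : ℕ => D.τ (((k : ℝ) + 1)⁻¹ • x t ^ (k + 1)))
      (D.τ (-(cfc Real.log (S t)) - Real.log c • (1 : B))) := fun t ht =>
    (log_series (IsSelfAdjoint.star_mul_self (y t)) hc0 hr2 (hball t ht).1.le).mapL D.τ
  have hmain := hasDerivAt_tsum_of_isPreconnected
    (u := fun k : ℕ => ‖D.τ‖ * (r ^ k * (c * (‖S' t₀‖ + 1))))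
    (g := fun k s => D.τ (((k : ℝ) + 1)⁻¹ • x s ^ (k + 1)))
    (g' := fun k t => D.τ (x t ^ k * -(c • S' t)))
    (((summable_geometric_of_lt_one hr0 hr2).mul_right _).mul_left _) Metric.isOpen_ball
    (convex_ball t₀ ε).isPreconnected (fun k t _ => hg k t) (fun k t ht => by
      refine (D.τ.le_opNorm _).trans ?_
      gcongr
      refine (norm_mul_le _ _).trans ?_
      rw [norm_neg, norm_smul, Real.norm_eq_abs, abs_of_pos hc0]
      gcongr
      · exact (norm_pow_le _ _).trans (pow_le_pow_left₀ (norm_nonneg _) (hball t ht).1.le k)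
      · exact (hball t ht).2.le)
    (Metric.mem_ball_self hε) (hser t₀ (Metric.mem_ball_self hε)).summable
    (Metric.mem_ball_self hε)
  -- value of the derivative
  have hgeo : HasSum (fun k : ℕ => x t₀ ^ k) (c⁻¹ • (w t₀ * star (w t₀))) := by
    have h3 : Summable fun k : ℕ => x t₀ ^ k := summable_geometric_of_norm_lt_one hlt
    have h4 : (∑' k : ℕ, x t₀ ^ k) * (1 - x t₀) = 1 := geom_series_mul_neg _ hlt
    have h5 : (1 - x t₀) * (c⁻¹ • (w t₀ * star (w t₀))) = 1 := by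
      simp only [hx, hS, sub_sub_cancel, smul_mul_smul_comm, mul_inv_cancel₀ hc0.ne', one_smul]
      rw [mul_assoc, ← mul_assoc (y t₀), h1, one_mul, ← star_mul, h2, star_one]
    have h6 : ∑' k : ℕ, x t₀ ^ k = c⁻¹ • (w t₀ * star (w t₀)) := by
      rw [← mul_one (∑' k : ℕ, x t₀ ^ k), ← h5, ← mul_assoc, h4, one_mul]
    rw [← h6]; exact h3.hasSum
  have hval : ∑' k : ℕ, D.τ (x t₀ ^ k * -(c • S' t₀)) =
      -(D.τ (y' t₀ * w t₀) + starRingEnd ℂ (D.τ (y' t₀ * w t₀))) := by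
    rw [((hgeo.mul_right (-(c • S' t₀))).mapL D.τ).tsum_eq, mul_neg, smul_mul_smul_comm,
      inv_mul_cancel₀ hc0.ne', one_smul, map_neg, ← D.st]
    congr 1
    simp only [hS', mul_add, map_add]
    rw [add_comm]
    congr 1
    · rw [mul_assoc, ← mul_assoc (star (w t₀)), ← star_mul, h1, star_one, one_mul,
        D.tr _ (hw _) _ (hA' _)]
    · rw [mul_assoc, D.tr _ (hw _) _ (mul_mem (star_mem (hw _))
        (mul_mem (star_mem (hA' _)) (hA _))), mul_assoc, mul_assoc, h1, mul_one, star_mul]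
  rw [hval] at hmain
  have h7 := (Complex.reCLM.hasFDerivAt.comp_hasDerivAt t₀ hmain).neg.sub_const
    (D.τ (Real.log c • (1 : B))).re
  refine (h7.congr_deriv ?_).congr_of_eventuallyEq ?_
  · simp; ring
  · filter_upwards [Metric.ball_mem_nhds t₀ hε] with t ht
    simp only [L, Pi.neg_apply, Function.comp, Complex.reCLM_apply, (hser t ht).tsum_eq, map_sub,
      map_neg, hS]
    ring

/-- invertible in the subalgebra -/
def U (x : B) : Prop := x ∈ D.A ∧ ∃ w ∈ D.A, x * w = 1 ∧ w * x = 1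

theorem U_mul {x y : B} (hx : D.U x) (hy : D.U y) : D.U (x * y) := by
  obtain ⟨h1, w, h2, h3, h4⟩ := hx
  obtain ⟨h1', w', h2', h3', h4'⟩ := hy
  refine ⟨mul_mem h1 h1', w' * w, mul_mem h2' h2, ?_, ?_⟩
  · rw [mul_assoc, ← mul_assoc y, h3', one_mul, h3]
  · rw [mul_assoc, ← mul_assoc w, h4, one_mul, h4']

theorem U_one : D.U 1 := ⟨one_mem _, 1, one_mem _, mul_one _, mul_one _⟩

theorem rsmul_mem (a : ℝ) {z : B} (hz : z ∈ D.A) : a • z ∈ D.A := by
  rw [← Complex.coe_smul]; exact D.A.smul_mem hz _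

theorem L_path [Nontrivial B] {x x' : B} (hx : D.U x) (hx' : D.U x') {b b' c : ℝ → B}
    (hb : ∀ t, HasDerivAt b (b' t) t) (hc : Continuous b') (hA : ∀ t, b t ∈ D.A)
    (hA' : ∀ t, b' t ∈ D.A) (hw : ∀ t, c t ∈ D.A) (h1 : ∀ t, b t * c t = 1)
    (h2 : ∀ t, c t * b t = 1) {κ : ℝ} (hκ : ∀ t, (D.τ (b' t * c t)).re = κ) (s : ℝ) :
    D.L (x * b s * x') = D.L (x * b 0 * x') + 2 * κ * s := by
  obtain ⟨g1, w, g2, g3, g4⟩ := hx
  obtain ⟨g1', w', g2', g3', g4'⟩ := hx'
  have key : ∀ t, HasDerivAt (fun t => D.L (x * b t * x') - 2 * κ * t) 0 t := by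
    intro t
    have h := D.hasDerivAt_L (y := fun t => x * b t * x') (y' := fun t => x * b' t * x')
      (w := fun t => w' * c t * w) (fun t => ((hb t).const_mul x).mul_const x') (by fun_prop)
      (fun t => mul_mem (mul_mem g1 (hA t)) g1') (fun t => mul_mem (mul_mem g1 (hA' t)) g1')
      (fun t => mul_mem (mul_mem g2' (hw t)) g2)
      (fun t => by
        calc x * b t * x' * (w' * c t * w) = x * (b t * (x' * w') * c t) * w := by
              simp only [mul_assoc]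
          _ = 1 := by rw [g3', mul_one, h1, mul_one, g3])
      (fun t => by
        calc w' * c t * w * (x * b t * x') = w' * (c t * (w * x) * b t) * x' := by
              simp only [mul_assoc]
          _ = 1 := by rw [g4, mul_one, h2, mul_one, g4']) t
    have e : D.τ (x * b' t * x' * (w' * c t * w)) = D.τ (b' t * c t) := by
      calc _ = D.τ (x * (b' t * (x' * w') * c t * w)) := by simp only [mul_assoc]
        _ = D.τ ((b' t * c t * w) * x) := by
          rw [g3', mul_one, D.tr _ g1 _ (mul_mem (mul_mem (hA' t) (hw t)) g2)]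
        _ = _ := by rw [mul_assoc, g4, mul_one]
    rw [e, hκ] at h
    have := h.sub ((hasDerivAt_id t).const_mul (2 * κ))
    exact HasDerivAt.congr_deriv (f := fun t => D.L (x * b t * x') - 2 * κ * t) this (by simp)
  have := is_const_of_deriv_eq_zero (fun t => (key t).differentiableAt) (fun t => (key t).deriv) s 0
  simp only [mul_zero, sub_zero] at this
  linarith

theorem U_unip {N : B} (hN : N ∈ D.A) (h : N * N = 0) : D.U (1 + N) :=
  ⟨add_mem (one_mem _) hN, 1 - N, sub_mem (one_mem _) hN, by simp [mul_sub, add_mul, h],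
    by simp [mul_add, sub_mul, h]⟩

theorem L_unip [Nontrivial B] {x x' N : B} (hx : D.U x) (hx' : D.U x') (hN : N ∈ D.A)
    (h : N * N = 0) (h0 : D.τ N = 0) : D.L (x * (1 + N) * x') = D.L (x * x') := by
  have := D.L_path hx hx' (b := fun t : ℝ => 1 + t • N) (b' := fun _ => N)
    (c := fun t : ℝ => 1 - t • N) (κ := 0)
    (fun t => by simpa using ((hasDerivAt_id t).smul_const N).const_add 1) continuous_const
    (fun t => add_mem (one_mem _) (D.rsmul_mem _ hN)) (fun _ => hN)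
    (fun t => sub_mem (one_mem _) (D.rsmul_mem _ hN))
    (fun t => by simp [mul_sub, add_mul, h]) (fun t => by simp [mul_add, sub_mul, h])
    (fun t => by simp [mul_sub, h, h0]) 1
  simpa using this

theorem proj_inv {p : B} (h : p * p = p) (t : ℝ) :
    (1 + (Real.exp t - 1) • p) * (1 + (Real.exp (-t) - 1) • p) = 1 := by
  have e : Real.exp t * Real.exp (-t) = 1 := by rw [← Real.exp_add]; simp
  simp only [mul_add, add_mul, one_mul, mul_one, smul_mul_smul_comm, h, add_assoc, ← add_smul]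
  rw [show Real.exp t - 1 + (Real.exp (-t) - 1 + (Real.exp t - 1) * (Real.exp (-t) - 1)) = 0 by
    linear_combination e]
  simp

theorem U_proj {p : B} (hp : p ∈ D.A) (h : p * p = p) (t : ℝ) :
    D.U (1 + (Real.exp t - 1) • p) :=
  ⟨add_mem (one_mem _) (D.rsmul_mem _ hp), 1 + (Real.exp (-t) - 1) • p,
    add_mem (one_mem _) (D.rsmul_mem _ hp), proj_inv h t, by simpa using proj_inv h (-t)⟩

theorem L_proj [Nontrivial B] {x x' p : B} (hx : D.U x) (hx' : D.U x') (hp : p ∈ D.A)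
    (h : p * p = p) (s : ℝ) :
    D.L (x * (1 + (Real.exp s - 1) • p) * x') = D.L (x * x') + 2 * (D.τ p).re * s := by
  have := D.L_path hx hx' (b := fun t : ℝ => 1 + (Real.exp t - 1) • p)
    (b' := fun t => Real.exp t • p) (c := fun t : ℝ => 1 + (Real.exp (-t) - 1) • p)
    (κ := (D.τ p).re)
    (fun t => by simpa using (((Real.hasDerivAt_exp t).sub_const 1).smul_const p).const_add 1)
    (by fun_prop) (fun t => add_mem (one_mem _) (D.rsmul_mem _ hp)) (fun t => D.rsmul_mem _ hp)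
    (fun t => add_mem (one_mem _) (D.rsmul_mem _ hp)) (fun t => proj_inv h t)
    (fun t => by simpa using proj_inv h (-t))
    (fun t => by
      have e : Real.exp t * Real.exp (-t) = 1 := by rw [← Real.exp_add]; simp
      simp only [mul_add, mul_one, smul_mul_smul_comm, h, ← add_smul]
      rw [show Real.exp t + Real.exp t * (Real.exp (-t) - 1) = 1 by linear_combination e, one_smul])
    s
  simpa using this

theorem L_one : D.L 1 = 0 := by
  simp [L]

theorem L_neg [Nontrivial B] {R : Type*} [Ring R] (ρ : R →+* B) (hρ : ∀ r, ρ r ∈ D.A)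
    {A N₁ N₂ P₁ P₂ : R} (key : (1 + P₂) * A = (1 + N₁) * (1 + N₂) * (1 + P₁))
    (hN₁ : N₁ * N₁ = 0) (hN₂ : N₂ * N₂ = 0) (hP₁ : P₁ * P₁ = P₁ + P₁) (hP₂ : P₂ * P₂ = P₂ + P₂)
    (s1 : D.τ (ρ N₁) = 0) (s2 : D.τ (ρ N₂) = 0) (s3 : D.τ (ρ P₁) = 1) (s4 : D.τ (ρ P₂) = 2) :
    D.L (ρ A) < 0 := by
  have e3 : Real.exp (Real.log 3) - 1 = 2 := by rw [Real.exp_log (by norm_num)]; norm_num
  have pr : ∀ P, P * P = P + P → ((1 / 2 : ℝ) • ρ P) * ((1 / 2 : ℝ) • ρ P) = (1 / 2 : ℝ) • ρ P ∧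
      ρ (1 + P) = 1 + (Real.exp (Real.log 3) - 1) • (1 / 2 : ℝ) • ρ P := fun P hP => by
    refine ⟨?_, ?_⟩
    · rw [smul_mul_smul_comm, ← map_mul, hP, map_add]; module
    · rw [e3, map_add, map_one]; module
  have mem : ∀ P, (1 / 2 : ℝ) • ρ P ∈ D.A := fun P => D.rsmul_mem _ (hρ P)
  have uP : ∀ P, P * P = P + P → D.U (ρ (1 + P)) := fun P hP => by
    rw [(pr P hP).2]; exact D.U_proj (mem P) (pr P hP).1 _
  have uN : ∀ N, N * N = 0 → D.U (ρ (1 + N)) := fun N hN => by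
    rw [map_add, map_one]; exact D.U_unip (hρ N) (by rw [← map_mul, hN, map_zero])
  have key' : ρ (1 + P₂) * ρ A = ρ (1 + N₁) * ρ (1 + N₂) * ρ (1 + P₁) := by
    rw [← map_mul, key, map_mul, map_mul]
  have uA : D.U (ρ A) := by
    obtain ⟨-, w, hw, hw1, hw2⟩ := D.U_mul (D.U_mul (uN _ hN₁) (uN _ hN₂)) (uP _ hP₁)
    obtain ⟨g1, v, hv, hv1, hv2⟩ := uP _ hP₂
    rw [← key'] at hw1 hw2
    refine ⟨hρ A, w * ρ (1 + P₂), mul_mem hw g1, ?_, by rw [mul_assoc, hw2]⟩
    calc ρ A * (w * ρ (1 + P₂)) = (v * ρ (1 + P₂)) * ρ A * (w * ρ (1 + P₂)) := by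
          rw [hv2, one_mul]
      _ = v * (ρ (1 + P₂) * ρ A * w) * ρ (1 + P₂) := by simp only [mul_assoc]
      _ = 1 := by rw [hw1, mul_one, hv2]
  have t1 : (D.τ ((1 / 2 : ℝ) • ρ P₁)).re = 1 / 2 := by
    rw [← Complex.coe_smul, map_smul, s3]; simp
  have t2 : (D.τ ((1 / 2 : ℝ) • ρ P₂)).re = 1 := by
    rw [← Complex.coe_smul, map_smul, s4]; simp
  have l1 := D.L_proj D.U_one uA (mem P₂) (pr _ hP₂).1 (Real.log 3)
  rw [← (pr _ hP₂).2, one_mul, one_mul, key', t2] at l1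
  have l2 := D.L_unip D.U_one (D.U_mul (uN _ hN₂) (uP _ hP₁)) (hρ N₁)
    (by rw [← map_mul, hN₁, map_zero]) s1
  have l3 := D.L_unip D.U_one (uP _ hP₁) (hρ N₂) (by rw [← map_mul, hN₂, map_zero]) s2
  have l4 := D.L_proj D.U_one D.U_one (mem P₁) (pr _ hP₁).1 (Real.log 3)
  rw [← (pr _ hP₁).2, t1] at l4
  simp only [one_mul, mul_one, D.L_one] at l2 l3 l4
  have a1 : 1 + ρ N₁ = ρ (1 + N₁) := by rw [map_add, map_one]
  have a2 : 1 + ρ N₂ = ρ (1 + N₂) := by rw [map_add, map_one]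
  rw [a1, ← mul_assoc] at l2
  rw [a2] at l3
  have : 0 < Real.log 3 := Real.log_pos (by norm_num)
  linarith

end TrData
end Crest.Agent.DF
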