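import Crest.Agent.DF.FK
import Crest.Agent.KE.MatB
import Crest.Prelude.Def_GroupRingDet
/-! The regular representation of matrices over an integral group ring; a matrix with
Fuglede–Kadison determinant `< 1`. -/
set_option autoImplicit false
namespace Crest.Agent.DF
open Crest.Agent.KE Crest.AlgebraR.GroupRingDet
open scoped InnerProductSpace

section reg
variable {G : Type} [Group G] {n : ℕ}

/-- inclusion of the `i`-th summand -/
noncomputable def W (G : Type) (i : Fin n) : L2 G →L[ℂ] L2 (Fin n × G) :=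
  ((orth_dl.comp (fun g : G => (i, g))
    (fun _ _ h => (Prod.ext_iff.1 h).2)).orthogonalFamily.linearIsometry).toContinuousLinearMap

omit [Group G] in
theorem W_dl (i : Fin n) (g : G) : W G i (dl g) = dl (i, g) := by
  classical
  have := (orth_dl.comp (fun g : G => (i, g))
    (fun _ _ h => (Prod.ext_iff.1 h).2)).orthogonalFamily.linearIsometry_apply_single
      (i := g) (1 : ℂ)
  simp only [LinearIsometry.toSpanSingleton_apply, one_smul, Function.comp] at this
  rw [← this]
  rfl

omit [Group G] in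
theorem W_adj_dl (i j : Fin n) (g : G) :
    ContinuousLinearMap.adjoint (W G i) (dl (j, g)) = if j = i then dl g else 0 := by
  classical
  refine L2_vec_ext fun x => ?_
  rw [ContinuousLinearMap.adjoint_inner_right, W_dl, inner_dl]
  split_ifs with h1 h2 h3
  · rw [inner_dl, if_pos (Prod.ext_iff.1 h1).2]
  · exact absurd (Prod.ext_iff.1 h1).1.symm h2
  · rw [inner_dl, if_neg]
    rintro rfl
    exact h1 (by rw [h3])
  · simp

/-- `E_{ij} ⊗ λ_k` -/
noncomputable def eu (i j : Fin n) (k : G) : L2 (Fin n × G) →L[ℂ] L2 (Fin n × G) :=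
  (W G i).comp ((iso (fun g => k * g) (mul_right_injective k)).comp
    (ContinuousLinearMap.adjoint (W G j)))

theorem eu_dl (i j l : Fin n) (k g : G) :
    eu i j k (dl (l, g)) = if l = j then dl (i, k * g) else 0 := by
  simp only [eu, ContinuousLinearMap.comp_apply, W_adj_dl]
  split_ifs
  · rw [iso_dl, W_dl]
  · simp

theorem eu_mul (i j i' j' : Fin n) (k k' : G) :
    eu i j k * eu i' j' k' = if i' = j then eu i j' (k * k') else 0 := by
  refine L2_ext fun ⟨l, g⟩ => ?_
  rw [mul_apply_eq_comp, eu_dl]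
  split_ifs with h1 h2 h3
  · rw [eu_dl, eu_dl, if_pos h2, if_pos h1, mul_assoc]
  · rw [eu_dl, if_neg h2]; simp
  · rw [eu_dl, if_neg h1]; simp
  · simp

open Classical in
theorem inner_eu (i j l m : Fin n) (k g h : G) :
    ⟪dl (m, h), eu i j k (dl (l, g))⟫_ℂ = if l = j ∧ m = i ∧ h = k * g then 1 else 0 := by
  rw [eu_dl]
  by_cases h1 : l = j
  · rw [if_pos h1, inner_dl]; simp [h1]
  · simp [h1]

theorem star_eu (i j : Fin n) (k : G) : star (eu i j k) = eu j i k⁻¹ := by
  classical
  refine L2_ext fun ⟨l, g⟩ => L2_vec_ext fun ⟨m, h⟩ => ?_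
  rw [ContinuousLinearMap.star_eq_adjoint, ContinuousLinearMap.adjoint_inner_right,
    ← inner_conj_symm, inner_eu, inner_eu]
  have : (m = j ∧ l = i ∧ g = k * h) ↔ (l = i ∧ m = j ∧ h = k⁻¹ * g) := by
    constructor
    · rintro ⟨h1, h2, h3⟩; exact ⟨h2, h1, by simp [h3]⟩
    · rintro ⟨h1, h2, h3⟩; exact ⟨h2, h1, by simp [h3]⟩
  simp only [this]
  split_ifs <;> simp

theorem sum_eu : ∑ i : Fin n, eu i i (1 : G) = 1 := by
  refine L2_ext fun ⟨l, g⟩ => ?_
  simp [eu_dl]

/-- the trace -/
noncomputable def tau (G : Type) [Group G] (n : ℕ) :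
    (L2 (Fin n × G) →L[ℂ] L2 (Fin n × G)) →L[ℂ] ℂ :=
  ∑ i : Fin n, (innerSL ℂ (dl (i, (1 : G)))).comp (ContinuousLinearMap.apply ℂ _ (dl (i, (1 : G))))

theorem tau_apply (T : L2 (Fin n × G) →L[ℂ] L2 (Fin n × G)) :
    tau G n T = ∑ i : Fin n, ⟪dl (i, (1 : G)), T (dl (i, 1))⟫_ℂ := by
  simp [tau]

open Classical in
theorem tau_eu (i j : Fin n) (k : G) : tau G n (eu i j k) = if i = j ∧ k = 1 then 1 else 0 := by
  rw [tau_apply]
  simp only [inner_eu, mul_one]
  by_cases h : i = j ∧ k = 1
  · obtain ⟨rfl, rfl⟩ := h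
    simp
  · rw [if_neg h]
    refine Finset.sum_eq_zero fun l _ => if_neg ?_
    rintro ⟨h1, h2, h3⟩
    exact h ⟨h2.symm.trans h1, h3.symm⟩

/-- the span of the `eu` -/
noncomputable def spanE (G : Type) [Group G] (n : ℕ) :
    Submodule ℂ (L2 (Fin n × G) →L[ℂ] L2 (Fin n × G)) :=
  Submodule.span ℂ (Set.range fun p : Fin n × Fin n × G => eu p.1 p.2.1 p.2.2)

theorem eu_mem (i j : Fin n) (k : G) : eu i j k ∈ spanE G n :=
  Submodule.subset_span ⟨(i, j, k), rfl⟩

theorem spanE_mul {x y : L2 (Fin n × G) →L[ℂ] L2 (Fin n × G)} (hx : x ∈ spanE G n)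
    (hy : y ∈ spanE G n) : x * y ∈ spanE G n ∧ tau G n (x * y) = tau G n (y * x) := by
  classical
  induction hx using Submodule.span_induction with
  | zero => simp
  | add a b _ _ ha hb =>
    exact ⟨by rw [add_mul]; exact add_mem ha.1 hb.1, by
      rw [add_mul, mul_add, map_add, map_add, ha.2, hb.2]⟩
  | smul c a _ ha =>
    exact ⟨by rw [smul_mul_assoc]; exact Submodule.smul_mem _ _ ha.1, by
      rw [smul_mul_assoc, mul_smul_comm, map_smul, map_smul, ha.2]⟩
  | mem a ha =>
    obtain ⟨⟨i, j, k⟩, rfl⟩ := ha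
    induction hy using Submodule.span_induction with
    | zero => simp
    | add a b _ _ ha hb =>
      exact ⟨by rw [mul_add]; exact add_mem ha.1 hb.1, by
        rw [add_mul, mul_add, map_add, map_add, ha.2, hb.2]⟩
    | smul c a _ ha =>
      exact ⟨by rw [mul_smul_comm]; exact Submodule.smul_mem _ _ ha.1, by
        rw [smul_mul_assoc, mul_smul_comm, map_smul, map_smul, ha.2]⟩
    | mem b hb =>
      obtain ⟨⟨i', j', k'⟩, rfl⟩ := hb
      simp only [eu_mul]
      refine ⟨?_, ?_⟩
      · split_ifs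
        · exact eu_mem _ _ _
        · exact zero_mem _
      · by_cases h1 : i' = j <;> by_cases h2 : i = j' <;>
          simp [h1, h2, tau_eu, mul_eq_one_comm (a := k)]

/-- the trace data of the regular representation -/
noncomputable def regData (G : Type) [Group G] (n : ℕ) :
    TrData (L2 (Fin n × G) →L[ℂ] L2 (Fin n × G)) where
  A := { (spanE G n).toSubalgebra (by rw [← sum_eu]; exact sum_mem fun i _ => eu_mem _ _ _)
          (fun _ _ hx hy => (spanE_mul hx hy).1) with
        star_mem' := by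
          intro x hx
          change x ∈ spanE G n at hx
          change star x ∈ spanE G n
          induction hx using Submodule.span_induction with
          | zero => simp
          | add a b _ _ ha hb => rw [star_add]; exact add_mem ha hb
          | smul c a _ ha => rw [star_smul]; exact Submodule.smul_mem _ _ ha
          | mem a ha =>
            obtain ⟨⟨i, j, k⟩, rfl⟩ := ha
            rw [star_eu]; exact eu_mem _ _ _ }
  τ := tau G n
  tr := fun _ hx _ hy => (spanE_mul hx hy).2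
  st := fun x => by
    simp only [tau_apply, map_sum, inner_conj_symm, ContinuousLinearMap.star_eq_adjoint,
      ContinuousLinearMap.adjoint_inner_right]

/-- one entry -/
noncomputable def ent (i j : Fin n) :
    MonoidAlgebra ℤ G →+ (L2 (Fin n × G) →L[ℂ] L2 (Fin n × G)) :=
  (Finsupp.liftAddHom fun k => (zmultiplesHom _ (eu i j k))).comp
    (MonoidAlgebra.coeffAddEquiv (R := ℤ) (M := G)).toAddMonoidHom

theorem ent_single (i j : Fin n) (k : G) (c : ℤ) :
    ent i j (MonoidAlgebra.single k c) = c • eu i j k := by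
  simp [ent]

theorem ent_mul (i j i' j' : Fin n) (a b : MonoidAlgebra ℤ G) :
    ent i j a * ent i' j' b = if i' = j then ent i j' (a * b) else 0 := by
  induction a using MonoidAlgebra.induction_linear with
  | zero => simp
  | add a a' h1 h2 => rw [map_add, add_mul, h1, h2, add_mul]; split_ifs <;> simp
  | single k c =>
    induction b using MonoidAlgebra.induction_linear with
    | zero => simp
    | add a a' h1 h2 => rw [map_add, mul_add, h1, h2, mul_add]; split_ifs <;> simp
    | single k' c' =>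
      rw [MonoidAlgebra.single_mul_single, ent_single, ent_single, ent_single, smul_mul_smul_comm,
        eu_mul]
      split_ifs <;> simp

theorem ent_mem (i j : Fin n) (a : MonoidAlgebra ℤ G) : ent i j a ∈ spanE G n := by
  induction a using MonoidAlgebra.induction_linear with
  | zero => simp
  | add a a' h1 h2 => rw [map_add]; exact add_mem h1 h2
  | single k c => rw [ent_single]; exact zsmul_mem (eu_mem _ _ _) _

open Classical in
theorem inner_ent (i j l m : Fin n) (a : MonoidAlgebra ℤ G) (g h : G) :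
    ⟪dl (m, h), ent i j a (dl (l, g))⟫_ℂ =
      if l = j ∧ m = i then (a.coeff (h * g⁻¹) : ℂ) else 0 := by
  induction a using MonoidAlgebra.induction_linear with
  | zero => simp
  | add a a' h1 h2 =>
    rw [map_add, add_apply, inner_add_right, h1, h2]
    split_ifs <;> simp
  | single k c =>
    rw [ent_single, ← Int.cast_smul_eq_zsmul ℂ, smul_apply, inner_smul_right,
      inner_eu, MonoidAlgebra.coeff_single, Finsupp.single_apply]
    have : k = h * g⁻¹ ↔ h = k * g := by
      constructor <;> rintro rfl <;> simp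
    simp only [this]
    by_cases h1 : l = j <;> by_cases h2 : m = i <;> by_cases h3 : h = k * g <;> simp [h1, h2, h3]

/-- the regular representation -/
noncomputable def rho (G : Type) [Group G] (n : ℕ) :
    Matrix (Fin n) (Fin n) (MonoidAlgebra ℤ G) →+* (L2 (Fin n × G) →L[ℂ] L2 (Fin n × G)) where
  toFun A := ∑ i, ∑ j, ent i j (A i j)
  map_zero' := by simp
  map_add' A B := by simp [Finset.sum_add_distrib]
  map_one' := by
    rw [← sum_eu]
    refine Finset.sum_congr rfl fun i _ => ?_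
    rw [Finset.sum_eq_single i]
    · rw [Matrix.one_apply_eq, MonoidAlgebra.one_def, ent_single, one_smul]
    · intro j _ hj; rw [Matrix.one_apply_ne hj.symm, map_zero]
    · simp
  map_mul' A B := by
    rw [Finset.sum_mul]
    refine Finset.sum_congr rfl fun i _ => ?_
    simp only [Matrix.mul_apply, map_sum]
    rw [Finset.sum_comm, Finset.sum_mul]
    refine Finset.sum_congr rfl fun l _ => ?_
    rw [Finset.mul_sum]
    symm
    rw [Finset.sum_eq_single l]
    · simp [Finset.mul_sum, ent_mul]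
    · intro m _ hm; simp [Finset.mul_sum, ent_mul, hm]
    · simp

theorem rho_apply (A : Matrix (Fin n) (Fin n) (MonoidAlgebra ℤ G)) :
    rho G n A = ∑ i, ∑ j, ent i j (A i j) := rfl

theorem rho_mem (A : Matrix (Fin n) (Fin n) (MonoidAlgebra ℤ G)) : rho G n A ∈ (regData G n).A :=
  by
  change _ ∈ spanE G n
  rw [rho_apply]
  exact sum_mem fun _ _ => sum_mem fun _ _ => ent_mem _ _ _

theorem inner_rho (A : Matrix (Fin n) (Fin n) (MonoidAlgebra ℤ G)) (i j : Fin n) (g h : G) :
    ⟪dl (i, h), rho G n A (dl (j, g))⟫_ℂ = ((A i j).coeff (h * g⁻¹) : ℂ) := by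
  classical
  simp only [rho_apply, sum_apply, inner_sum, inner_ent]
  rw [Finset.sum_eq_single i]
  · simp
  · intro l _ hl; simp [hl.symm]
  · simp

theorem tau_rho (A : Matrix (Fin n) (Fin n) (MonoidAlgebra ℤ G)) :
    (regData G n).τ (rho G n A) = ∑ i, ((A i i).coeff 1 : ℂ) := by
  change tau G n _ = _
  simp [tau_apply, inner_rho]

/-- the standard Hilbert basis -/
noncomputable def hb (X : Type) : HilbertBasis X ℂ (L2 X) :=
  HilbertBasis.ofRepr (LinearIsometryEquiv.refl ℂ _)

theorem hb_apply {X : Type} (x : X) : hb X x = dl x := by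
  classical
  rw [← HilbertBasis.repr_symm_single]
  simp only [hb, dl]
  congr

theorem logDet_eq (T : L2 (Fin n × G) →L[ℂ] L2 (Fin n × G)) :
    logDet (hb (Fin n × G)) T = 1 / 2 * (regData G n).L T := by
  simp only [logDet, opTrace, TrData.L, hb_apply]
  change _ = _ * (tau G n _).re
  rw [tau_apply, Complex.re_sum]

end reg

open Matrix in
/-- From a `2 × 2` identity `X Y = 1` modulo `2 - z` (with `X` a column and `Y` a row) to a matrix
of determinant `< 1`. -/
theorem exists_logDet_neg {G : Type} [Group G] (z : G) (hz1 : z ≠ 1) (hz2 : z * z = 1)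
    (hzc : ∀ g, z * g = g * z) (X Y : Fin 2 → MonoidAlgebra ℤ G)
    (Z : Fin 2 → Fin 2 → MonoidAlgebra ℤ G)
    (h : ∀ i k, X i * Y k - (if i = k then 1 else 0) = (2 - MonoidAlgebra.single z 1) * Z i k) :
    ∃ (A : Matrix (Fin 3) (Fin 3) (MonoidAlgebra ℤ G)) (T : L2 (Fin 3 × G) →L[ℂ] L2 (Fin 3 × G)),
      IsUnit (A.map (MonoidAlgebra.mapRingHom G (Int.castRingHom ℚ))) ∧
      IsRegularRepOperator (hb (Fin 3 × G)) A T ∧ logDet (hb (Fin 3 × G)) T < 0 := by
  classical
  set ζ : MonoidAlgebra ℤ G := MonoidAlgebra.single z 1 with hζ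
  set m : MonoidAlgebra ℤ G := 2 - ζ with hm
  have hζ2 : ζ * ζ = 1 := by
    rw [hζ, MonoidAlgebra.single_mul_single, hz2, mul_one, MonoidAlgebra.one_def]
  have hζc : ∀ a, ζ * a = a * ζ := fun a => by
    induction a using MonoidAlgebra.induction_linear with
    | zero => simp
    | add a a' h1 h2 => rw [mul_add, add_mul, h1, h2]
    | single k c => simp [hζ, MonoidAlgebra.single_mul_single, hzc]
  have hmc : ∀ a, a * m = m * a := fun a => by
    rw [hm, mul_sub, sub_mul, hζc, mul_two, two_mul]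
  let A : Matrix (Fin 3) (Fin 3) (MonoidAlgebra ℤ G) :=
    !![m, -Y 0, -Y 1; X 0, -Z 0 0, -Z 0 1; X 1, -Z 1 0, -Z 1 1]
  let N₁ : Matrix (Fin 3) (Fin 3) (MonoidAlgebra ℤ G) := !![0, 0, 0; X 0, 0, 0; X 1, 0, 0]
  let N₂ : Matrix (Fin 3) (Fin 3) (MonoidAlgebra ℤ G) := !![0, -Y 0, -Y 1; 0, 0, 0; 0, 0, 0]
  let P₁ : Matrix (Fin 3) (Fin 3) (MonoidAlgebra ℤ G) := !![1 - ζ, 0, 0; 0, 0, 0; 0, 0, 0]
  let P₂ : Matrix (Fin 3) (Fin 3) (MonoidAlgebra ℤ G) := !![0, 0, 0; 0, 1 - ζ, 0; 0, 0, 1 - ζ]
  have em : 1 + (1 - ζ) = m := by rw [hm, ← one_add_one_eq_two]; abel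
  have h00 := h 0 0
  have h01 := h 0 1
  have h10 := h 1 0
  have h11 := h 1 1
  simp only [if_true, Fin.zero_eq_one_iff, Fin.one_eq_zero_iff, OfNat.ofNat_ne_one, if_false,
    sub_zero] at h00 h01 h10 h11
  have key : (1 + P₂) * A = (1 + N₁) * (1 + N₂) * (1 + P₁) := by
    ext1 i j
    fin_cases i <;> fin_cases j <;>
      simp [A, N₁, N₂, P₁, P₂, Matrix.mul_apply, Fin.sum_univ_three, Matrix.one_apply, em, hmc,
        ← h00, ← h01, ← h10, ← h11]
    all_goals abel
  have hN₁ : N₁ * N₁ = 0 := by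
    ext1 i j
    fin_cases i <;> fin_cases j <;> simp [N₁, Matrix.mul_apply, Fin.sum_univ_three]
  have hN₂ : N₂ * N₂ = 0 := by
    ext1 i j
    fin_cases i <;> fin_cases j <;> simp [N₂, Matrix.mul_apply, Fin.sum_univ_three]
  have hq : (1 - ζ) * (1 - ζ) = (1 - ζ) + (1 - ζ) := by
    rw [mul_sub, sub_mul, sub_mul, hζ2]; simp only [mul_one, one_mul]; abel
  have hP₁ : P₁ * P₁ = P₁ + P₁ := by
    ext1 i j
    fin_cases i <;> fin_cases j <;> simp [P₁, Matrix.mul_apply, Fin.sum_univ_three, hq]
  have hP₂ : P₂ * P₂ = P₂ + P₂ := by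
    ext1 i j
    fin_cases i <;> fin_cases j <;> simp [P₂, Matrix.mul_apply, Fin.sum_univ_three, hq]
  refine ⟨A, rho G 3 A, ?_, fun i j g k => by rw [hb_apply, hb_apply, inner_rho], ?_⟩
  · set φ := (MonoidAlgebra.mapRingHom G (Int.castRingHom ℚ)).mapMatrix (m := Fin 3) with hφ
    change IsUnit (φ A)
    have u1 : ∀ N, N * N = 0 → IsUnit (φ (1 + N)) := fun N hN =>
      IsUnit.map φ ⟨⟨1 + N, 1 - N, by simp [mul_sub, add_mul, hN], by simp [mul_add, sub_mul, hN]⟩,
        rfl⟩
    have u2 : ∀ P, P * P = P + P → IsUnit (φ (1 + P)) := fun P hP => by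
      have e : φ P * φ P = φ P + φ P := by rw [← map_mul, hP, map_add]
      refine ⟨⟨φ (1 + P), 1 - (1 / 3 : ℚ) • φ P, ?_, ?_⟩, rfl⟩
      · rw [map_add, map_one, mul_sub, mul_smul_comm, add_mul, add_mul, e]
        simp only [mul_one, one_mul]
        module
      · rw [map_add, map_one, sub_mul, smul_mul_assoc, mul_add, mul_add, e]
        simp only [mul_one, one_mul]
        module
    have := congrArg φ key
    rw [map_mul, map_mul, map_mul] at this
    have h3 : IsUnit (φ (1 + P₂) * φ A) := by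
      rw [this]; exact ((u1 _ hN₁).mul (u1 _ hN₂)).mul (u2 _ hP₁)
    exact ((u2 _ hP₂).mul_left_iff).1 h3
  · rw [logDet_eq]
    have : Nontrivial (L2 (Fin 3 × G) →L[ℂ] L2 (Fin 3 × G)) := by
      refine ⟨1, 0, fun h0 => ?_⟩
      have h1 := tau_rho (G := G) (n := 3) 1
      rw [map_one, h0, map_zero] at h1
      simp [MonoidAlgebra.one_def] at h1
    have c1 : ((1 - ζ).coeff 1 : ℂ) = 1 := by
      simp [hζ, MonoidAlgebra.one_def, hz1]
    have := (regData G 3).L_neg (rho G 3) rho_mem key hN₁ hN₂ hP₁ hP₂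
      (by rw [tau_rho]; simp [N₁, Fin.sum_univ_three])
      (by rw [tau_rho]; simp [N₂, Fin.sum_univ_three])
      (by rw [tau_rho]; simp [P₁, Fin.sum_univ_three, -MonoidAlgebra.coeff_sub, c1])
      (by rw [tau_rho]; simp [P₂, Fin.sum_univ_three, -MonoidAlgebra.coeff_sub, c1]; norm_num)
    linarith

end Crest.Agent.DF
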