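import Crest.Agent.DF.Ext
import Crest.Agent.DF.Reg
/-! The group algebras in odd characteristic and over the integers. -/
set_option autoImplicit false
namespace Crest.Agent.DF
open Finset

lemma span_twoSided {A : Type} [Ring A] {m : A} (hm : ∀ a, m * a = a * m) :
    (Ideal.span {m}).IsTwoSided := ⟨fun {a} b ha => by
  obtain ⟨r, rfl⟩ := Ideal.mem_span_singleton'.1 ha
  exact Ideal.mem_span_singleton'.2 ⟨r * b, by rw [mul_assoc, ← hm, mul_assoc]⟩⟩

lemma single_comm {K H : Type} [CommRing K] [Group H] {z : H} (hz : ∀ g, z * g = g * z) (c : K)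
    (a : MonoidAlgebra K H) : MonoidAlgebra.single z c * a = a * MonoidAlgebra.single z c := by
  induction a using MonoidAlgebra.induction_linear with
  | zero => simp
  | add a b ha hb => rw [mul_add, add_mul, ha, hb]
  | single g d => rw [MonoidAlgebra.single_mul_single, MonoidAlgebra.single_mul_single, hz, mul_comm c]

theorem exists_int : ∃ (G : Type) (_ : Group G) (z : G) (X Y : Fin 2 → MonoidAlgebra ℤ G)
    (Z : Fin 2 → Fin 2 → MonoidAlgebra ℤ G), Group.FG G ∧ z ≠ 1 ∧ z * z = 1 ∧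
      (∀ g, z * g = g * z) ∧
      ∀ i k, X i * Y k - (if i = k then 1 else 0) = (2 - MonoidAlgebra.single z 1) * Z i k := by
  have : Fact (Nat.Prime 3) := ⟨Nat.prime_three⟩
  have : Fintype (GaloisField 3 4) := Fintype.ofFinite _
  have hq : Fintype.card (GaloisField 3 4) = 81 := by
    rw [← Nat.card_eq_fintype_card, GaloisField.card 3 4 (by norm_num)]; norm_num
  obtain ⟨H, _, ζ, X, Y, h1, h2, h3, h4⟩ := exists_ext (GaloisField 3 4) 81 hq (by decide)
    (by norm_num) ℤˣ fun n => if n = -1 then -1 else 1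
  have hz2 : ζ (-1) * ζ (-1) = 1 := by rw [← map_mul]; simp
  let m : MonoidAlgebra ℤ H := 2 - MonoidAlgebra.single (ζ (-1)) 1
  have hm : ∀ a, m * a = a * m := fun a => by
    simp only [m, sub_mul, mul_sub, single_comm (h3 (-1)), two_mul, mul_two]
  have := span_twoSided hm
  let Φ := Ideal.Quotient.mk (Ideal.span {m})
  have e1 : Φ (MonoidAlgebra.single (ζ (-1)) 1) = 2 := by
    have : Φ m = 0 := Ideal.Quotient.eq_zero_iff_mem.2 (Ideal.subset_span rfl)
    rw [map_sub, map_ofNat, sub_eq_zero] at this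
    exact this.symm
  have e2 : (3 : MonoidAlgebra ℤ H ⧸ Ideal.span {m}) = 0 := by
    have : Φ (MonoidAlgebra.single (ζ (-1)) 1) * Φ (MonoidAlgebra.single (ζ (-1)) 1) = 1 := by
      rw [← map_mul, MonoidAlgebra.single_mul_single, hz2, mul_one, ← MonoidAlgebra.one_def, map_one]
    rw [e1] at this
    rw [show (3 : MonoidAlgebra ℤ H ⧸ Ideal.span {m}) = 2 * 2 - 1 by norm_num, this, sub_self]
  have h5 := h4 _ Φ
    (by rw [show ((81 : ℕ) : MonoidAlgebra ℤ H ⧸ Ideal.span {m}) = 3 * 27 by norm_num, e2, zero_mul])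
    (by
      rintro n (rfl | rfl | rfl)
      · rw [if_neg (by norm_num), map_one, ← MonoidAlgebra.one_def, map_one, Int.cast_one]
      · rw [if_pos rfl, e1, ← sub_eq_zero, ← e2]; norm_num
      · rw [if_neg (by norm_num), map_one, ← MonoidAlgebra.one_def, map_one, ← sub_eq_zero, ← e2]
        norm_num)
  have h6 : ∀ i k, ∃ Z, X i * Y k - (if i = k then 1 else 0) = m * Z := fun i k => by
    have : Φ (X i * Y k - (if i = k then 1 else 0)) = 0 := by
      rw [map_sub, map_mul, h5]
      split_ifs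
      · rw [map_one, ← e2]; norm_num
      · simp
    obtain ⟨r, hr⟩ := Ideal.mem_span_singleton'.1 (Ideal.Quotient.eq_zero_iff_mem.1 this)
    exact ⟨r, by rw [hm, hr]⟩
  choose Z hZ using h6
  refine ⟨H, inferInstance, ζ (-1), X, Y, Z, h1, fun h => ?_, hz2, h3 _, hZ⟩
  exact absurd (h2 (h.trans (map_one ζ).symm)) (by decide)

/-- one-sided inverses modulo a central idempotent -/
lemma lift_idem {A : Type} [Ring A] {e : A} (he : e * e = e) (hc : ∀ a, e * a = a * e) (h0 : e ≠ 0)
    {x₀ x₁ y₀ y₁ : A} (h00 : e * (x₀ * y₀) = e) (h01 : e * (x₀ * y₁) = 0)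
    (h11 : e * (x₁ * y₁) = e) : ∃ a b : A, a * b = 1 ∧ b * a ≠ 1 := by
  have k1 : ∀ x y, (e * x + (1 - e)) * (e * y + (1 - e)) = e * (x * y) + (1 - e) := fun x y => by
    have a1 : e * x * (e * y) = e * (x * y) := by
      rw [← mul_assoc, mul_assoc e x, ← hc, ← mul_assoc, he, mul_assoc]
    have a2 : e * x * e = e * x := by rw [mul_assoc, ← hc, ← mul_assoc, he]
    have a3 : e * (e * y) = e * y := by rw [← mul_assoc, he]
    simp only [add_mul, mul_add, mul_sub, sub_mul, mul_one, one_mul, a1, a2, a3, he]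
    abel
  refine ⟨e * x₀ + (1 - e), e * y₀ + (1 - e), by rw [k1, h00]; abel, fun h => h0 ?_⟩
  rw [k1] at h
  have h1 : e * (y₀ * x₀) = e := by rw [← add_left_inj (1 - e), h]; abel
  have h2 : e * y₁ = 0 := by
    rw [← h1, mul_assoc, mul_assoc, ← mul_assoc, hc y₀, mul_assoc, h01, mul_zero]
  rw [← h11, ← mul_assoc, hc x₁, mul_assoc, h2, mul_zero]

theorem exists_odd (p : ℕ) [Fact p.Prime] (h64 : 64 ≤ p) (K : Type) [Field K] [Finite K]
    [CharP K p] : ∃ (G : Type) (_ : Group G), Group.FG G ∧ (∃ g : G, g ≠ 1 ∧ IsOfFinOrder g) ∧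
      ∃ a b : MonoidAlgebra K G, a * b = 1 ∧ b * a ≠ 1 := by
  classical
  have : Fintype K := Fintype.ofFinite K
  have h2 : (2 : K) ≠ 0 := fun h => by
    have := Nat.le_of_dvd (by norm_num) ((CharP.cast_eq_zero_iff K p 2).1 (by simpa using h))
    omega
  obtain ⟨H, _, ζ, X, Y, h1, h3, h4, h5⟩ := exists_ext (ZMod p) p (ZMod.card p)
    ((Fact.out : p.Prime).odd_of_ne_two (by omega)) h64 Kˣ
    fun n => if h : (n : K) = 0 then 1 else Units.mk0 _ h
  let e : MonoidAlgebra K H := ∑ ω : Kˣ, MonoidAlgebra.single (ζ ω) (-(ω⁻¹ : Kˣ))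
  have e1 : ∀ (ω : Kˣ) (c : K), MonoidAlgebra.single (ζ ω) c * e = (c * ω) • e := fun ω c => by
    simp only [e, Finset.mul_sum, Finset.smul_sum, MonoidAlgebra.single_mul_single,
      MonoidAlgebra.smul_single, ← map_mul]
    refine Fintype.sum_equiv (Equiv.mulLeft ω) _ _ fun η => ?_
    have : c * (η : K)⁻¹ = c * ω * ((η : K)⁻¹ * (ω : K)⁻¹) := by field_simp
    simp [this]
  have e2 : e * e = e := by
    conv_lhs => enter [1]; unfold e
    simp only [Finset.sum_mul, e1, ← Finset.sum_smul]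
    have : ((Fintype.card Kˣ : ℕ) : K) = -1 := by
      rw [Fintype.card_units, Nat.cast_sub Fintype.card_pos, FiniteField.cast_card_eq_zero]; simp
    simp [this]
  have e3 : ∀ a, e * a = a * e := fun a => by
    simp only [e, Finset.mul_sum, Finset.sum_mul, single_comm (h4 _)]
  have e4 : e ≠ 0 := fun h => by
    have := congrArg (fun t : MonoidAlgebra K H => t.coeff (ζ 1)) h
    simp only [e, MonoidAlgebra.coeff_sum, Finsupp.finsetSum_apply, MonoidAlgebra.coeff_single,
      Finsupp.single_apply, h3.eq_iff] at this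
    simp at this
  have hm : ∀ a, (1 - e) * a = a * (1 - e) := fun a => by rw [sub_mul, mul_sub, e3]; simp
  have := span_twoSided hm
  let Ψ := Ideal.Quotient.mk (Ideal.span {1 - e})
  have k1 : ∀ a b, Ψ a = Ψ b ↔ e * a = e * b := fun a b => by
    rw [Ideal.Quotient.eq, Ideal.mem_span_singleton', ← sub_eq_zero (a := e * a), ← mul_sub]
    constructor
    · rintro ⟨r, hr⟩
      rw [← hr, e3, mul_assoc, sub_mul, e2]; simp
    · intro h
      exact ⟨a - b, by rw [mul_sub, ← e3, h]; simp⟩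
  let ι := MonoidAlgebra.mapRingHom H (Int.castRingHom K)
  have h6 := h5 _ (Ψ.comp ι)
    (by
      rw [← map_natCast Ψ, ← map_natCast (algebraMap K (MonoidAlgebra K H)), CharP.cast_eq_zero,
        map_zero, map_zero])
    (fun n hn => by
      have h0 : (n : K) ≠ 0 := by
        rcases hn with rfl | rfl | rfl <;> simp [h2]
      rw [← map_intCast Ψ, RingHom.comp_apply, k1, e3, e3, dif_neg h0]
      simp only [ι, MonoidAlgebra.mapRingHom_single, map_one, e1]
      simp [Algebra.smul_def])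
  have h4' : (4 : K) ≠ 0 := by
    rw [show (4 : K) = 2 * 2 by norm_num]; exact mul_ne_zero h2 h2
  have h7 : ∀ i k, e * (ι (X i) * ((4 : K)⁻¹ • ι (Y k))) = if i = k then e else 0 := fun i k => by
    have := h6 i k
    rw [RingHom.comp_apply, RingHom.comp_apply, ← map_mul] at this
    have h8 : Ψ (ι (X i) * ι (Y k)) = Ψ (if i = k then 4 else 0) := by
      rw [this]; split_ifs
      · rw [map_ofNat]
      · rw [map_zero]
    rw [mul_smul_comm, mul_smul_comm, (k1 _ _).1 h8]
    split_ifs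
    · rw [← map_ofNat (algebraMap K (MonoidAlgebra K H)), e3, ← Algebra.smul_def, smul_smul,
        inv_mul_cancel₀ h4', one_smul]
    · simp
  refine ⟨H, inferInstance, h1, ⟨ζ (-1), fun h => ?_, ζ.isOfFinOrder (isOfFinOrder_of_finite _)⟩,
    lift_idem e2 e3 e4 (h7 0 0) (h7 0 1) (h7 1 1)⟩
  have := congrArg Units.val (h3 (h.trans (map_one ζ).symm))
  apply h2
  simp only [Units.val_neg, Units.val_one] at this
  linear_combination -this

end Crest.Agent.DF
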