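import Crest.Agent.ZD.Mach0
import Crest.Agent.ZD.GoodEx0
import Crest.Agent.ZD.Glob
import Crest.Agent.ZD.Osc
import Crest.Agent.DF.Design
/-! Potentials, the handshake identity, and the group algebra over `𝔽₂`. -/
set_option autoImplicit false
namespace Crest.Agent.DF
open Finset Crest.Agent.ZD
open FreeGroup (mk invRev mul_mk inv_mk)

/-- the output of the probabilistic and geometric machine -/
def MachStmt : Prop := ∀ (Pt : Type) [Fintype Pt] [DecidableEq Pt] (k Np c : ℕ), 65 ≤ k →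
  Np < k ^ 2 → 0 < c → ∀ (Ms : ∀ t : ℕ, Model Pt k Np (c * t)) (x₀ : ∀ t, (Ms (t + 1)).X),
    ∃ (t : ℕ) (σ : (Ms (t + 1)).Conf), (Ms (t + 1)).Col σ ∧
      Mach ((Ms (t + 1)).graph σ) (Ms (t + 1)).UX (Sum.inl (x₀ t))

theorem mach_of (hd : DiamStmt) : MachStmt := by
  intro Pt _ _ k Np c hk hN hc Ms x₀
  obtain ⟨C₀, Cc, h⟩ := exists_good_of hd Pt k Np c hk hN hc Ms x₀
  obtain ⟨J, hJ⟩ := machine_of glob
    (fun _ _ _ _ _ Γ _ hg π h1 h2 h3 h4 => exists_osc Γ hg π h1 h2 h3 h4) C₀ Cc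
  obtain ⟨t, g, σ, h1, h2, h3, h4⟩ := h J
  have h5 := (Model.mem_GS _).1 h1
  exact ⟨t, σ, h5.2, hJ Pt _ _ _ g h2 h5.1 h3 h4⟩

theorem exists_potential {S H : Type} [Group H] (Γ : LG S) (W : Γ.V → List (S × Bool) → H)
    (hW : ∀ x y u w, Γ.run x u = some y → W x (u ++ w) = W x u * W y w)
    (h1 : ∀ x u, Γ.run x u = some x → W x u = 1) :
    ∃ a : Γ.V → H, ∀ x y u, Γ.run x u = some y → a y = a x * W x u := by
  let s : Setoid Γ.V := ⟨fun x y => ∃ u, Γ.run x u = some y,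
    ⟨fun x => ⟨[], rfl⟩, fun ⟨_, hu⟩ => ⟨_, Γ.run_invRev hu⟩,
      fun ⟨u, hu⟩ ⟨w, hw⟩ => ⟨u ++ w, Γ.run_append_eq_some.2 ⟨_, hu, hw⟩⟩⟩⟩
  have hp : ∀ x, ∃ u, Γ.run (Quotient.mk s x).out u = some x := fun x =>
    Quotient.mk_out (s := s) x
  choose p hp using hp
  refine ⟨fun x => W (Quotient.mk s x).out (p x), fun x y u hu => ?_⟩
  have e : (Quotient.mk s y).out = (Quotient.mk s x).out := by
    rw [Quotient.sound (s := s) (a := x) (b := y) ⟨u, hu⟩]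
  have hy := hp y
  have hx := hp x
  have a1 := h1 _ _ (Γ.run_append_eq_some.2 ⟨_, hy, Γ.run_invRev hy⟩)
  rw [hW _ _ _ _ hy] at a1
  have hy' : Γ.run y (invRev (p y)) = some (Quotient.mk s x).out := e ▸ Γ.run_invRev hy
  have a2 := h1 _ _ (Γ.run_append_eq_some.2 ⟨_, hx, Γ.run_append_eq_some.2 ⟨_, hu, hy'⟩⟩)
  rw [hW _ _ _ _ hx, hW _ _ _ _ hu, ← mul_assoc] at a2
  exact mul_right_cancel (a1.trans a2.symm)

section hand
variable {Pt : Type} [Fintype Pt] [DecidableEq Pt] {k Np R : ℕ} (M : Model Pt k Np R)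

lemma sum_inter {α A : Type} [Fintype α] [AddCommMonoid A] (l : α → Finset Pt)
    (F : Pt → α → α → A) :
    ∑ x, ∑ y, ∑ p ∈ l x ∩ l y, F p x y =
      ∑ p, ∑ x : {x // p ∈ l x}, ∑ y : {y // p ∈ l y}, F p x y := by
  classical
  have h : ∀ p (G : α → A), ∑ x : {x // p ∈ l x}, G x = ∑ x, if p ∈ l x then G x else 0 := by
    intro p G
    rw [← Finset.sum_filter, Finset.sum_subtype (p := fun x => p ∈ l x)]
    simp
  have h2 : ∀ x y, ∑ p ∈ l x ∩ l y, F p x y =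
      ∑ p, if p ∈ l x then (if p ∈ l y then F p x y else 0) else 0 := by
    intro x y
    rw [← Finset.sum_filter, ← Finset.sum_filter]
    refine Finset.sum_congr ?_ fun _ _ => rfl
    ext p; simp
  have h3 : ∀ p, ∑ x : {x // p ∈ l x}, ∑ y : {y // p ∈ l y}, F p x y =
      ∑ x, ∑ y, if p ∈ l x then (if p ∈ l y then F p x y else 0) else 0 := by
    intro p
    rw [h p (fun x => ∑ y : {y // p ∈ l y}, F p x y)]
    refine Finset.sum_congr rfl fun x _ => ?_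
    rw [h p (fun y => F p x y)]
    split_ifs <;> simp
  simp_rw [h2, h3]
  rw [Finset.sum_comm (s := (univ : Finset Pt))]
  refine Finset.sum_congr rfl fun x _ => ?_
  rw [Finset.sum_comm]

/-- the handshake identity -/
theorem handshake (σ : M.Conf) {A : Type} [AddCommMonoid A] (F : M.X → M.X → A)
    (F' : Pt → M.Z → M.Z → A)
    (h : ∀ p (x y : {x // p ∈ M.lx x}), F x y = F' p (σ p x) (σ p y)) :
    ∑ x, ∑ y, (M.lx x ∩ M.lx y).card • F x y = ∑ z, ∑ w, ∑ p ∈ M.bz z ∩ M.bz w, F' p z w := by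
  simp_rw [← Finset.sum_const]
  rw [sum_inter M.lx fun _ x y => F x y, sum_inter M.bz F']
  refine Finset.sum_congr rfl fun p _ => ?_
  refine Fintype.sum_equiv (σ p) _ _ fun x => ?_
  exact Fintype.sum_equiv (σ p) _ _ fun y => h p x y

lemma run_edge (σ : M.Conf) (p : Pt) (x : {x // p ∈ M.lx x}) :
    (M.graph σ).run (Sum.inl x.1) [(p, true)] = some (Sum.inr (σ p x).1) := by
  rw [LG.run_singleton]
  simp [Model.nxt, x.2]

open Classical in
/-- the product formula over `𝔽₂` -/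
theorem f2_prod (σ : M.Conf) (hX : ∀ x y, Odd (M.lx x ∩ M.lx y).card) (z₀ : M.Z)
    (hZ : ∀ z w, Odd (M.bz z ∩ M.bz w).card ↔ (z = z₀ ∧ w = z₀)) {G : Type} [Group G]
    (s : Pt → G) (a : M.X ⊕ M.Z → G)
    (ha : ∀ p (x : {x // p ∈ M.lx x}), a (Sum.inr (σ p x).1) = a (Sum.inl x.1) * s p)
    (P Q : M.X ⊕ M.Z → Prop)
    (hP : ∀ p (x : {x // p ∈ M.lx x}), P (Sum.inl x.1) ↔ P (Sum.inr (σ p x).1))
    (hQ : ∀ p (x : {x // p ∈ M.lx x}), Q (Sum.inl x.1) ↔ Q (Sum.inr (σ p x).1)) :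
    (∑ x, if P (Sum.inl x) then MonoidAlgebra.single (a (Sum.inl x)) (1 : ZMod 2) else 0) *
      (∑ y, if Q (Sum.inl y) then MonoidAlgebra.single (a (Sum.inl y))⁻¹ (1 : ZMod 2) else 0) =
      if P (Sum.inr z₀) ∧ Q (Sum.inr z₀) then 1 else 0 := by
  have h2 : ∀ t : MonoidAlgebra (ZMod 2) G, 2 • t = 0 := fun t => by
    rw [← Nat.cast_smul_eq_nsmul (ZMod 2), ZMod.natCast_self, zero_smul]
  have hodd : ∀ (n : ℕ) (t : MonoidAlgebra (ZMod 2) G), n • t = if Odd n then t else 0 := by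
    intro n t
    rcases Nat.even_or_odd' n with ⟨r, rfl | rfl⟩
    · rw [if_neg (by simp), mul_smul, h2]
    · rw [if_pos (by simp), add_smul, mul_smul, h2, zero_add, one_smul]
  let F : M.X ⊕ M.Z → M.X ⊕ M.Z → MonoidAlgebra (ZMod 2) G := fun u v =>
    if P u ∧ Q v then MonoidAlgebra.single (a u * (a v)⁻¹) 1 else 0
  have key := handshake M σ (fun x y => F (Sum.inl x) (Sum.inl y))
    (fun _ z w => F (Sum.inr z) (Sum.inr w)) (fun p x y => by
      simp only [F, hP, hQ, ha]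
      congr 2; group)
  simp only [Finset.sum_const, hodd, hX, if_true, hZ] at key
  rw [Finset.sum_mul_sum]
  have e1 : ∀ x y, (if P (Sum.inl x) then MonoidAlgebra.single (a (Sum.inl x)) (1 : ZMod 2) else 0) *
      (if Q (Sum.inl y) then MonoidAlgebra.single (a (Sum.inl y))⁻¹ (1 : ZMod 2) else 0) =
      F (Sum.inl x) (Sum.inl y) := by
    intro x y
    by_cases h1 : P (Sum.inl x) <;> by_cases h2 : Q (Sum.inl y) <;>
      simp [F, h1, h2, MonoidAlgebra.single_mul_single]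
  simp_rw [e1]
  rw [key, Finset.sum_eq_single z₀, Finset.sum_eq_single z₀]
  · simp [F, MonoidAlgebra.one_def]
  · intro w _ hw; simp [hw]
  · simp
  · intro z _ hz; simp [hz]
  · simp

/-- a one-sided unit which is a zero divisor -/
theorem f2_alg (σ : M.Conf) (hσ : M.Col σ) (x₀ : M.X) (hx₀ : M.cx x₀ = 1)
    (hX : ∀ x y, Odd (M.lx x ∩ M.lx y).card) (z₀ : M.Z) (hz₀ : M.cz z₀ = 0)
    (hZ : ∀ z w, Odd (M.bz z ∩ M.bz w).card ↔ (z = z₀ ∧ w = z₀))
    (hm : Mach (M.graph σ) M.UX (Sum.inl x₀)) :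
    ∃ a b c : MonoidAlgebra (ZMod 2) (M.graph σ).Grp, a * b = 1 ∧ a * c = 0 ∧ c ≠ 0 := by
  classical
  obtain ⟨a, ha⟩ := exists_potential (M.graph σ) (fun _ u => (M.graph σ).pr (mk u))
    (fun _ _ u w _ => by rw [← mul_mk, map_mul]) (fun _ _ h => LG.pr_run _ h)
  have ha' := fun p x => ha _ _ _ (run_edge M σ p x)
  have hP : ∀ p (x : {x // p ∈ M.lx x}),
      M.col (Sum.inl x.1) = 0 ↔ M.col (Sum.inr (σ p x).1) = 0 := fun p x => by
    rw [Model.run_col _ hσ (run_edge M σ p x)]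
  let Q : M.X ⊕ M.Z → Prop := fun v => ∃ u, (M.graph σ).run (Sum.inl x₀) u = some v
  have hQ : ∀ p (x : {x // p ∈ M.lx x}), Q (Sum.inl x.1) ↔ Q (Sum.inr (σ p x).1) := fun p x =>
    ⟨fun ⟨_, hu⟩ => ⟨_, (LG.run_append_eq_some _).2 ⟨_, hu, run_edge M σ p x⟩⟩,
      fun ⟨_, hu⟩ => ⟨_, (LG.run_append_eq_some _).2 ⟨_, hu, LG.run_invRev _ (run_edge M σ p x)⟩⟩⟩
  have h1 := f2_prod M σ hX z₀ hZ _ a ha' (fun v => M.col v = 0) (fun v => M.col v = 0) hP hP
  have h2 := f2_prod M σ hX z₀ hZ _ a ha' (fun v => M.col v = 0) Q hP hQ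
  refine ⟨_, _, _, h1.trans (if_pos ⟨hz₀, hz₀⟩), h2.trans (if_neg ?_), fun h => ?_⟩
  · rintro ⟨-, u, hu⟩
    have := Model.run_col _ hσ hu
    simp only [Model.col, Sum.elim_inr, Sum.elim_inl, hz₀, hx₀] at this
    exact absurd this (by decide)
  · have h3 := congrArg (fun t : MonoidAlgebra (ZMod 2) (M.graph σ).Grp =>
      t.coeff (a (Sum.inl x₀))⁻¹) h
    simp only [MonoidAlgebra.coeff_sum, Finsupp.finsetSum_apply, MonoidAlgebra.coeff_zero,
      Finsupp.zero_apply] at h3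
    rw [Finset.sum_eq_single x₀] at h3
    · rw [if_pos ⟨[], rfl⟩] at h3
      simp at h3
    · intro y _ hy
      split_ifs with hq
      · obtain ⟨u, hu⟩ := hq
        have h4 := hm.pt _ ⟨y, rfl⟩ (fun e => hy (Sum.inl.inj e)) u hu
        rw [MonoidAlgebra.coeff_single, Finsupp.single_eq_of_ne]
        rw [ha _ _ _ hu]
        simpa using h4
      · simp
    · simp

end hand

/-- A group produced by the machine whose group algebra over `𝔽₂` has a left invertible element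
which is a zero divisor. -/
theorem exists_f2 (hm : MachStmt) : ∃ (S : Type) (_ : Fintype S) (_ : DecidableEq S) (Γ : LG S)
    (U : Set Γ.V) (x₀ : Γ.V), Finite Γ.V ∧ Mach Γ U x₀ ∧
      ∃ a b c : MonoidAlgebra (ZMod 2) Γ.Grp, a * b = 1 ∧ a * c = 0 ∧ c ≠ 0 := by
  obtain ⟨Pt, _, _, Ms, x₀, h⟩ := design_two
  obtain ⟨t, σ, h1, h2⟩ := hm Pt 65 4196 260 le_rfl (by norm_num) (by norm_num) Ms x₀
  obtain ⟨a1, a2, z₀, a3, a4⟩ := h t
  exact ⟨Pt, inferInstance, inferInstance, _, _, _, inferInstance, h2,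
    f2_alg _ σ h1 _ a1 a2 z₀ a3 a4 h2⟩

end Crest.Agent.DF
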